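import Vale.Agent.P167.H562.SML
import Vale.Agent.P167.H199.CutPlane

/-!
# P167: translations of plane percolation, with exchange of the colours for the odd vectors

`shC a` is the translation by `a` of a configuration (colours exchanged if `a` is odd); it preserves
`μ` and transports the loops, with the sites which they surround. The mean number of small loops
around a site does not depend on the site (`mean_cn`), the mean of the sum of the masses of the small
loops is zero for a neutral charge (`mean_zero`).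
-/

namespace Vale.Agent.P167.H135

open Finset MeasureTheory ProbabilityTheory Filter Topology
open Vale.Agent.P167.H562.SML (smf mem_smf fat mem_fat smf_loc')

/-! ### relabelling of the squares -/

/-- Exchange of the colours if `b`. -/
def fx (b x : Bool) : Bool := if b then !x else x

/-- Relabelling of the squares, with exchange of the colours if `b`. -/
def rl (σ : (ℤ × ℤ) ≃ (ℤ × ℤ)) (b : Bool) (ω : Cfg) : Cfg := fun v => fx b (ω (σ v))

theorem fair_fx (b : Bool) : fair.map (fx b) = fair := by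
  have hm : Measurable (fx b) := measurable_of_finite _
  unfold fair
  rw [Measure.map_add _ _ hm, Measure.map_smul, Measure.map_smul, Measure.map_dirac' hm,
    Measure.map_dirac' hm]
  cases b
  · simp [fx]
  · simp only [fx, if_true, Bool.not_true, Bool.not_false]
    rw [add_comm]

theorem map_rl (σ : (ℤ × ℤ) ≃ (ℤ × ℤ)) (b : Bool) : μ.map (rl σ b) = μ := by
  have h1 : μ.map (fun ω : Cfg => fun v => ω (σ v)) = μ := by
    have h := Measure.infinitePi_map_piCongrLeft (μ := fun _ : ℤ × ℤ => fair) σ.symm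
    have e : ⇑(MeasurableEquiv.piCongrLeft (fun _ => Bool) σ.symm) =
        fun ω : Cfg => fun v => ω (σ v) := by
      funext ω i
      rw [MeasurableEquiv.coe_piCongrLeft]
      have h1 := Equiv.piCongrLeft_apply_apply (fun _ : ℤ × ℤ => Bool) σ.symm ω (σ i)
      rw [Equiv.symm_apply_apply] at h1
      exact h1
    rw [e] at h
    exact h
  have h2 : μ.map (fun ω : Cfg => fun v => fx b (ω v)) = μ := by
    have h := Measure.infinitePi_map_pi (μ := fun _ : ℤ × ℤ => fair)
      (f := fun _ : ℤ × ℤ => fx b) (fun _ => measurable_of_finite _)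
    simp only [fair_fx] at h
    exact h
  have m1 : Measurable (fun ω : Cfg => fun v => ω (σ v)) :=
    measurable_pi_lambda _ fun v => measurable_pi_apply _
  have m2 : Measurable (fun ω : Cfg => fun v => fx b (ω v)) :=
    measurable_pi_lambda _ fun v =>
      Measurable.comp (g := fx b) (measurable_of_finite _) (measurable_pi_apply v)
  have h3 := Measure.map_map (μ := μ) m2 m1
  rw [h1, h2] at h3
  exact h3.symm

theorem meas_rl (σ : (ℤ × ℤ) ≃ (ℤ × ℤ)) (b : Bool) : Measurable (rl σ b) :=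
  measurable_pi_lambda _ fun v =>
    Measurable.comp (g := fx b) (measurable_of_finite _) (measurable_pi_apply (σ v))

theorem mp_rl (σ : (ℤ × ℤ) ≃ (ℤ × ℤ)) (b : Bool) : MeasurePreserving (rl σ b) μ μ :=
  ⟨meas_rl σ b, map_rl σ b⟩

/-! ### translations -/

/-- Translation of the squares. -/
def trS (a : ℤ × ℤ) : (ℤ × ℤ) ≃ (ℤ × ℤ) where
  toFun v := v - a
  invFun v := v + a
  left_inv v := by simp
  right_inv v := by simp

/-- Translation of a configuration: the colours are exchanged for the odd vectors. -/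
def shC (a : ℤ × ℤ) (ω : Cfg) : Cfg := rl (trS a) (!decide (Even (a.1 + a.2))) ω

theorem mp_shC (a : ℤ × ℤ) : MeasurePreserving (shC a) μ μ := mp_rl _ _

/-- Translation of the medial edges. -/
def shE (a : ℤ × ℤ) : Ed → Ed
  | Sum.inl v => Sum.inl (v + a)
  | Sum.inr v => Sum.inr (v + a)

theorem shE_inj (a : ℤ × ℤ) : Function.Injective (shE a) := by
  intro x y h
  cases x <;> cases y <;> simp_all [shE]

theorem shE_neg (a : ℤ × ℤ) (e : Ed) : shE (-a) (shE a e) = e := by
  cases e <;> simp [shE]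

theorem shC_neg (a : ℤ × ℤ) (ω : Cfg) : shC (-a) (shC a ω) = ω := by
  funext v
  have h : Even (-a.1 + -a.2) ↔ Even (a.1 + a.2) := by
    rw [show -a.1 + -a.2 = -(a.1 + a.2) by ring, even_neg]
  by_cases ha : Even (a.1 + a.2) <;>
  simp [shC, rl, fx, trS, h, ha]

theorem shC_ev {a : ℤ × ℤ} (ha : Even (a.1 + a.2)) (ω : Cfg) (v : ℤ × ℤ) :
    shC a ω (v + a) = ω v := by
  simp [shC, rl, fx, trS, ha]

theorem shC_od {a : ℤ × ℤ} (ha : ¬ Even (a.1 + a.2)) (ω : Cfg) (v : ℤ × ℤ) :
    shC a ω (v + a) = !ω v := by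
  simp [shC, rl, fx, trS, ha]

theorem ev_add {a : ℤ × ℤ} (ha : Even (a.1 + a.2)) (x y : ℤ) :
    Even (x + a.1 + (y + a.2)) ↔ Even (x + y) := by
  rw [show x + a.1 + (y + a.2) = (x + y) + (a.1 + a.2) by ring, Int.even_add]
  simp [ha]

theorem od_add {a : ℤ × ℤ} (ha : ¬ Even (a.1 + a.2)) (x y : ℤ) :
    Even (x + a.1 + (y + a.2)) ↔ ¬ Even (x + y) := by
  rw [show x + a.1 + (y + a.2) = (x + y) + (a.1 + a.2) by ring, Int.even_add]
  simp [ha]

theorem nx_sh {a : ℤ × ℤ} (ha : Even (a.1 + a.2)) (ω : Cfg) (e : Ed) :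
    nx (shC a ω) (shE a e) = shE a (nx ω e) := by
  have e1 : ∀ x y : ℤ, shC a ω (x + a.1, y + a.2) = ω (x, y) := fun x y => shC_ev ha ω (x, y)
  rcases e with ⟨x, y⟩ | ⟨x, y⟩
  · have h1 := ev_add ha x y
    have h2 := e1 (x + 1) y
    have h3 := e1 x y
    rw [show x + 1 + a.1 = x + a.1 + 1 by ring] at h2
    by_cases hp : Even (x + y)
    · rw [show shE a (Sum.inl (x, y)) = Sum.inl (x + a.1, y + a.2) from rfl]
      simp only [nx, h1, hp, if_true, h2]
      cases ω (x + 1, y)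
      · simp only [Bool.false_eq_true, if_false, shE]
        rw [show ((x + 1, y) : ℤ × ℤ) + a = (x + a.1 + 1, y + a.2) from by
          ext <;> simp <;> ring]
      · simp only [if_true, shE]
        rw [show ((x + 1, y - 1) : ℤ × ℤ) + a = (x + a.1 + 1, y + a.2 - 1) from by
          ext <;> simp <;> ring]
    · rw [show shE a (Sum.inl (x, y)) = Sum.inl (x + a.1, y + a.2) from rfl]
      simp only [nx, h1, hp, if_false, h3]
      cases ω (x, y)
      · simp only [Bool.false_eq_true, if_false, shE]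
        rw [show ((x, y - 1) : ℤ × ℤ) + a = (x + a.1, y + a.2 - 1) from by
          ext <;> simp <;> ring]
      · simp only [if_true, shE]
        rfl
  · have h1 := ev_add ha x y
    have h2 := e1 x (y + 1)
    have h3 := e1 x y
    rw [show y + 1 + a.2 = y + a.2 + 1 by ring] at h2
    by_cases hp : Even (x + y)
    · rw [show shE a (Sum.inr (x, y)) = Sum.inr (x + a.1, y + a.2) from rfl]
      simp only [nx, h1, hp, if_true, h3]
      cases ω (x, y)
      · simp only [Bool.false_eq_true, if_false, shE]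
        rfl
      · simp only [if_true, shE]
        rw [show ((x - 1, y) : ℤ × ℤ) + a = (x + a.1 - 1, y + a.2) from by
          ext <;> simp <;> ring]
    · rw [show shE a (Sum.inr (x, y)) = Sum.inr (x + a.1, y + a.2) from rfl]
      simp only [nx, h1, hp, if_false, h2]
      cases ω (x, y + 1)
      · simp only [Bool.false_eq_true, if_false, shE]
        rw [show ((x - 1, y + 1) : ℤ × ℤ) + a = (x + a.1 - 1, y + a.2 + 1) from by
          ext <;> simp <;> ring]
      · simp only [if_true, shE]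
        rw [show ((x, y + 1) : ℤ × ℤ) + a = (x + a.1, y + a.2 + 1) from by
          ext <;> simp <;> ring]

theorem nx_sh' {a : ℤ × ℤ} (ha : ¬ Even (a.1 + a.2)) (ω : Cfg) (e : Ed) :
    nx (shC a ω) (shE a (nx ω e)) = shE a e := by
  have e1 : ∀ x y : ℤ, shC a ω (x + a.1, y + a.2) = !ω (x, y) := fun x y => shC_od ha ω (x, y)
  have pr : ∀ x y : ℤ, Even (x + a.1 + (y + a.2)) ↔ ¬ Even (x + y) := od_add ha
  have sE1 : ∀ x y : ℤ, shE a (Sum.inl (x, y)) = Sum.inl (x + a.1, y + a.2) := fun _ _ => rfl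
  have sE2 : ∀ x y : ℤ, shE a (Sum.inr (x, y)) = Sum.inr (x + a.1, y + a.2) := fun _ _ => rfl
  rcases e with ⟨x, y⟩ | ⟨x, y⟩
  · by_cases hp : Even (x + y)
    · have g1 : ¬ Even (x + 1 + (y - 1) + 1) := by
        rw [show x + 1 + (y - 1) + 1 = x + y + 1 by ring, Int.even_add_one]; simpa using hp
      simp only [nx, hp, if_true]
      cases hω : ω (x + 1, y)
      · simp only [Bool.false_eq_true, if_false, sE1, sE2]
        have h1 : ¬ Even (x + 1 + y) := by
          rw [show x + 1 + y = x + y + 1 by ring, Int.even_add_one]; simpa using hp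
        have h2 := (pr (x + 1) y).2 h1
        simp only [nx, h2, if_true, e1, hω, Bool.not_false]
        rw [show x + 1 + a.1 - 1 = x + a.1 by ring]
      · simp only [if_true, sE1, sE2]
        have h1 : Even (x + 1 + (y - 1)) := by
          rw [show x + 1 + (y - 1) = x + y by ring]; exact hp
        have h2 : ¬ Even (x + 1 + a.1 + (y - 1 + a.2)) := by
          rw [pr (x + 1) (y - 1)]; simpa using h1
        simp only [nx, h2, if_false]
        rw [show y - 1 + a.2 + 1 = y + a.2 by ring, e1, hω]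
        simp only [Bool.not_true, Bool.false_eq_true, if_false]
        rw [show x + 1 + a.1 - 1 = x + a.1 by ring]
    · simp only [nx, hp, if_false]
      cases hω : ω (x, y)
      · simp only [Bool.false_eq_true, if_false, sE1, sE2]
        have h1 : Even (x + (y - 1)) := by
          rw [show x + (y - 1) = x + y - 1 by ring, Int.even_sub_one]; exact hp
        have h2 : ¬ Even (x + a.1 + (y - 1 + a.2)) := by
          rw [pr x (y - 1)]; simpa using h1
        simp only [nx, h2, if_false]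
        rw [show y - 1 + a.2 + 1 = y + a.2 by ring, e1, hω]
        simp only [Bool.not_false, if_true]
      · simp only [if_true, sE1, sE2]
        have h2 : Even (x + a.1 + (y + a.2)) := (pr x y).2 hp
        simp only [nx, h2, if_true, e1, hω, Bool.not_true, Bool.false_eq_true, if_false]
  · by_cases hp : Even (x + y)
    · simp only [nx, hp, if_true]
      cases hω : ω (x, y)
      · simp only [Bool.false_eq_true, if_false, sE1, sE2]
        have h2 : ¬ Even (x + a.1 + (y + a.2)) := by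
          rw [pr x y]; simpa using hp
        simp only [nx, h2, if_false, e1, hω, Bool.not_false, if_true]
      · simp only [if_true, sE1, sE2]
        have h1 : ¬ Even (x - 1 + y) := by
          rw [show x - 1 + y = x + y - 1 by ring, Int.even_sub_one]; simpa using hp
        have h2 := (pr (x - 1) y).2 h1
        simp only [nx, h2, if_true]
        rw [show x - 1 + a.1 + 1 = x + a.1 by ring, e1, hω]
        simp only [Bool.not_true, Bool.false_eq_true, if_false]
    · simp only [nx, hp, if_false]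
      cases hω : ω (x, y + 1)
      · simp only [Bool.false_eq_true, if_false, sE1, sE2]
        have h1 : ¬ Even (x - 1 + (y + 1)) := by
          rw [show x - 1 + (y + 1) = x + y by ring]; exact hp
        have h2 := (pr (x - 1) (y + 1)).2 h1
        simp only [nx, h2, if_true]
        rw [show x - 1 + a.1 + 1 = x + a.1 by ring, e1, hω]
        simp only [Bool.not_false, if_true]
        rw [show y + 1 + a.2 - 1 = y + a.2 by ring]
      · simp only [if_true, sE1, sE2]
        have h1 : Even (x + (y + 1)) := by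
          rw [show x + (y + 1) = x + y + 1 by ring, Int.even_add_one]; exact hp
        have h2 : ¬ Even (x + a.1 + (y + 1 + a.2)) := by
          rw [pr x (y + 1)]; simpa using h1
        simp only [nx, h2, if_false, e1, hω, Bool.not_true, Bool.false_eq_true]
        rw [show y + 1 + a.2 - 1 = y + a.2 by ring]

theorem hdv_sh {a : ℤ × ℤ} (ha : Even (a.1 + a.2)) (e : Ed) : hdv (shE a e) = hdv e + a := by
  rcases e with ⟨x, y⟩ | ⟨x, y⟩
  · have h1 := ev_add ha x y
    show hdv (Sum.inl (x + a.1, y + a.2)) = _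
    simp only [hdv, h1]
    split_ifs
    · ext <;> simp <;> ring
    · rfl
  · have h1 := ev_add ha x y
    show hdv (Sum.inr (x + a.1, y + a.2)) = _
    simp only [hdv, h1]
    split_ifs
    · rfl
    · ext <;> simp <;> ring

theorem hdv_sh' {a : ℤ × ℤ} (ha : ¬ Even (a.1 + a.2)) (e : Ed) : hdv (shE a e) = tlv e + a := by
  rcases e with ⟨x, y⟩ | ⟨x, y⟩
  · have h1 := od_add ha x y
    show hdv (Sum.inl (x + a.1, y + a.2)) = _
    simp only [hdv, tlv, h1]
    by_cases hp : Even (x + y)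
    · simp only [hp, not_true_eq_false, if_false, if_true]; rfl
    · simp only [hp, not_false_eq_true, if_true, if_false]
      ext <;> simp <;> ring
  · have h1 := od_add ha x y
    show hdv (Sum.inr (x + a.1, y + a.2)) = _
    simp only [hdv, tlv, h1]
    by_cases hp : Even (x + y)
    · simp only [hp, not_true_eq_false, if_false, if_true]
      ext <;> simp <;> ring
    · simp only [hp, not_false_eq_true, if_true, if_false]; rfl

theorem sg_sh {a : ℤ × ℤ} (ha : Even (a.1 + a.2)) (e : Ed) : sg (shE a e) = sg e := by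
  rcases e with ⟨x, y⟩ | ⟨x, y⟩
  · have h1 := ev_add ha x y
    show sg (Sum.inl (x + a.1, y + a.2)) = _
    simp only [sg, h1]
  · have h1 := ev_add ha x y
    show sg (Sum.inr (x + a.1, y + a.2)) = _
    simp only [sg, h1]

theorem sg_sh' {a : ℤ × ℤ} (ha : ¬ Even (a.1 + a.2)) (e : Ed) : sg (shE a e) = - sg e := by
  rcases e with ⟨x, y⟩ | ⟨x, y⟩
  · have h1 := od_add ha x y
    show sg (Sum.inl (x + a.1, y + a.2)) = _
    simp only [sg, h1]
    by_cases hp : Even (x + y) <;> simp [hp]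
  · have h1 := od_add ha x y
    show sg (Sum.inr (x + a.1, y + a.2)) = _
    simp only [sg, h1]
    by_cases hp : Even (x + y) <;> simp [hp]

theorem it_sh {a : ℤ × ℤ} (ha : Even (a.1 + a.2)) (ω : Cfg) (e : Ed) (n : ℕ) :
    (nx (shC a ω))^[n] (shE a e) = shE a ((nx ω)^[n] e) := by
  induction n with
  | zero => rfl
  | succ n ih => rw [Function.iterate_succ_apply', ih, nx_sh ha, Function.iterate_succ_apply']

theorem it_sh' {a : ℤ × ℤ} (ha : ¬ Even (a.1 + a.2)) (ω : Cfg) (e : Ed) (n : ℕ) :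
    (nx (shC a ω))^[n] (shE a ((nx ω)^[n] e)) = shE a e := by
  induction n with
  | zero => rfl
  | succ n ih =>
    rw [Function.iterate_succ_apply, Function.iterate_succ_apply' (nx ω), nx_sh' ha, ih]

open H685 H199 in
/-- Translation of the loops. -/
theorem loop_sh (a : ℤ × ℤ) {ω : Cfg} {ℓ : Finset Ed} (h : IsLoop ω ℓ) :
    IsLoop (shC a ω) (ℓ.image (shE a)) := by
  classical
  obtain ⟨e, he⟩ := h
  have h : IsLoop ω ℓ := ⟨e, he⟩
  have hee : e ∈ ℓ := (he e).2 ⟨0, rfl⟩
  refine ⟨shE a e, fun x => ?_⟩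
  by_cases ha : Even (a.1 + a.2)
  · constructor
    · intro hx
      obtain ⟨y, hy, rfl⟩ := mem_image.1 hx
      obtain ⟨n, rfl⟩ := (he y).1 hy
      exact ⟨n, it_sh ha ω e n⟩
    · rintro ⟨n, rfl⟩
      rw [it_sh ha]
      exact mem_image_of_mem _ ((he _).2 ⟨n, rfl⟩)
  · constructor
    · intro hx
      obtain ⟨y, hy, rfl⟩ := mem_image.1 hx
      obtain ⟨n, hn⟩ := (loop_gen h hy e).1 hee
      refine ⟨n, ?_⟩
      rw [← hn, it_sh' ha]
    · rintro ⟨n, rfl⟩
      induction n with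
      | zero => exact mem_image_of_mem _ hee
      | succ n ih =>
        rw [Function.iterate_succ_apply']
        obtain ⟨y, hy, hy'⟩ := mem_image.1 ih
        rw [← hy']
        obtain ⟨m, hm⟩ := (loop_gen h (loop_nx h hy) y).1 hy
        have h1 : nx ω ((nx ω)^[m] y) = y := by
          rw [← Function.iterate_succ_apply' (nx ω), Function.iterate_succ_apply, hm]
        have h2 := nx_sh' ha ω ((nx ω)^[m] y)
        rw [h1] at h2
        rw [h2]
        exact mem_image_of_mem _ (loop_iter h hy m)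

open H685 H199 in
theorem vs_tl {ω : Cfg} {ℓ : Finset Ed} (h : IsLoop ω ℓ) : ℓ.image tlv = vs ℓ := by
  classical
  unfold vs
  ext v
  simp only [mem_image]
  constructor
  · rintro ⟨y, hy, rfl⟩
    obtain ⟨m, hm⟩ := (loop_gen h (loop_nx h hy) y).1 hy
    have h1 : nx ω ((nx ω)^[m] y) = y := by
      rw [← Function.iterate_succ_apply' (nx ω), Function.iterate_succ_apply, hm]
    exact ⟨(nx ω)^[m] y, loop_iter h hy m, by rw [← tlv_nx ω, h1]⟩
  · rintro ⟨y, hy, rfl⟩
    exact ⟨nx ω y, loop_nx h hy, tlv_nx ω y⟩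

theorem vs_sh (a : ℤ × ℤ) {ω : Cfg} {ℓ : Finset Ed} (h : IsLoop ω ℓ) :
    vs (ℓ.image (shE a)) = (vs ℓ).image (fun v => v + a) := by
  classical
  by_cases ha : Even (a.1 + a.2)
  · unfold vs
    rw [image_image, image_image]
    exact image_congr fun e _ => hdv_sh ha e
  · rw [← vs_tl h]
    unfold vs
    rw [image_image, image_image]
    exact image_congr fun e _ => hdv_sh' ha e

theorem small_sh (a : ℤ × ℤ) {ω : Cfg} {ℓ : Finset Ed} (h : IsLoop ω ℓ) {d : ℝ}
    (hs : Small d ℓ) : Small d (ℓ.image (shE a)) := by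
  classical
  intro u hu v hv
  rw [vs_sh a h] at hu hv
  obtain ⟨u', hu', rfl⟩ := mem_image.1 hu
  obtain ⟨v', hv', rfl⟩ := mem_image.1 hv
  have := hs u' hu' v' hv'
  rwa [show u' + a - (v' + a) = u' - v' by abel]

theorem W_sh {a : ℤ × ℤ} (ℓ : Finset Ed) (s : ℤ × ℤ) :
    W (ℓ.image (shE a)) (s + a) = (if Even (a.1 + a.2) then 1 else -1) * W ℓ s := by
  classical
  unfold W
  rw [sum_image fun x _ y _ h => shE_inj a h, mul_sum]
  refine sum_congr rfl fun e _ => ?_
  rcases e with v | v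
  · show (0 : ℤ) = _ * 0
    ring
  · show (if (v + a).2 + 1 = (s + a).2 ∧ (s + a).1 ≤ (v + a).1 then sg (shE a (Sum.inr v)) else 0) =
      (if Even (a.1 + a.2) then 1 else -1) * (if v.2 + 1 = s.2 ∧ s.1 ≤ v.1 then sg (Sum.inr v) else 0)
    have h1 : ((v + a).2 + 1 = (s + a).2 ∧ (s + a).1 ≤ (v + a).1) ↔
        (v.2 + 1 = s.2 ∧ s.1 ≤ v.1) := by
      simp only [Prod.snd_add, Prod.fst_add]
      omega
    by_cases h2 : v.2 + 1 = s.2 ∧ s.1 ≤ v.1
    · rw [if_pos h2, if_pos (h1.2 h2)]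
      by_cases ha : Even (a.1 + a.2)
      · rw [if_pos ha, sg_sh ha, one_mul]
      · rw [if_neg ha, sg_sh' ha, neg_one_mul]
    · rw [if_neg h2, if_neg fun h => h2 (h1.1 h), mul_zero]

theorem ins_sh {a : ℤ × ℤ} {ℓ : Finset Ed} {s : ℤ × ℤ} :
    s + a ∈ ins (ℓ.image (shE a)) ↔ s ∈ ins ℓ := by
  show W _ _ ≠ 0 ↔ W ℓ s ≠ 0
  rw [W_sh]
  split_ifs <;> simp

/-! ### number of the small loops around a site -/

/-- The small loops around a site. -/
def CS (d : ℝ) (z : ℤ × ℤ) (ω : Cfg) : Set (Finset Ed) :=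
  {ℓ | IsLoop ω ℓ ∧ Small d ℓ ∧ z ∈ ins ℓ}

theorem CS_sh (d : ℝ) (z a : ℤ × ℤ) (ω : Cfg) :
    CS d (z + a) (shC a ω) = (fun ℓ : Finset Ed => ℓ.image (shE a)) '' CS d z ω := by
  classical
  ext ℓ
  constructor
  · rintro ⟨h1, h2, h3⟩
    have h4 := loop_sh (-a) h1
    rw [shC_neg] at h4
    have e1 : (ℓ.image (shE (-a))).image (shE a) = ℓ := by
      rw [image_image]
      have : shE a ∘ shE (-a) = id := by
        funext e
        have := shE_neg (-a) e
        rwa [neg_neg] at this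
      rw [this, image_id]
    refine ⟨ℓ.image (shE (-a)), ⟨h4, small_sh (-a) h1 h2, ?_⟩, e1⟩
    rw [← ins_sh (a := a), e1]
    exact h3
  · rintro ⟨ℓ', ⟨h1, h2, h3⟩, rfl⟩
    exact ⟨loop_sh a h1, small_sh a h1 h2, ins_sh.2 h3⟩

/-- Number of the small loops around a site. -/
noncomputable def Cn (d : ℝ) (z : ℤ × ℤ) (ω : Cfg) : ℝ := ((CS d z ω).ncard : ℝ)

theorem Cn_sh (d : ℝ) (z a : ℤ × ℤ) (ω : Cfg) : Cn d (z + a) (shC a ω) = Cn d z ω := by
  classical
  unfold Cn
  rw [CS_sh, Set.ncard_image_of_injective _ (image_injective (shE_inj a))]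

/-- The squares of a small loop are close to the surrounded sites. -/
theorem near_ins {ω : Cfg} {ℓ : Finset Ed} (hℓ : IsLoop ω ℓ) {d : ℝ} (hs : Small d ℓ)
    {s v : ℤ × ℤ} (h : s ∈ ins ℓ) (hv : v ∈ vs ℓ) : (nm (v - s) : ℝ) < d := by
  classical
  set a := H45.bs ℓ with ha
  obtain ⟨n1, hn1⟩ : ∃ n1 : ℤ, n1 = ⌈d⌉ - 1 := ⟨_, rfl⟩
  have hn1' : (n1 : ℝ) < d := by
    rw [hn1]; push_cast; linarith [Int.ceil_lt_add_one d]
  have hbox : ∀ v ∈ vs ℓ, a.1 ≤ v.1 ∧ v.1 ≤ a.1 + n1 ∧ a.2 ≤ v.2 ∧ v.2 ≤ a.2 + n1 := by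
    intro v hv
    obtain ⟨h1, h2⟩ := H45.small_box hs hv
    obtain ⟨h3, h4⟩ := H45.bs_le hv
    have h5 : v.1 - a.1 < ⌈d⌉ := Int.lt_ceil.2 h1
    have h6 : v.2 - a.2 < ⌈d⌉ := Int.lt_ceil.2 h2
    refine ⟨h3, by omega, h4, by omega⟩
  have h1 := s_out ω ℓ hℓ _ _ _ _ hbox s h
  have h2 := hbox v hv
  refine lt_of_le_of_lt ?_ hn1'
  have : nm (v - s) ≤ n1 := by
    simp only [nm, max_le_iff, abs_le, Prod.fst_sub, Prod.snd_sub]
    omega
  exact_mod_cast this

open H45 in
theorem CS_sub {d : ℝ} {z : ℤ × ℤ} {A : Finset (ℤ × ℤ)} (hA : ∀ v : ℤ × ℤ, (nm (v - z) : ℝ) < d →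
    v ∈ A) (ω : Cfg) : CS d z ω = {ℓ | ℓ ∈ smf A d ω ∧ z ∈ ins ℓ} := by
  ext ℓ
  constructor
  · rintro ⟨h1, h2, h3⟩
    obtain ⟨v, hv⟩ := vs_nonempty h1
    exact ⟨mem_smf.2 ⟨h1, ⟨v, hv, hA v (near_ins h1 h2 h3 hv)⟩, h2⟩, h3⟩
  · rintro ⟨h1, h3⟩
    rw [mem_smf] at h1
    exact ⟨h1.1, h1.2.2, h3⟩

theorem exists_ball (z : ℤ × ℤ) (d : ℝ) :
    ∃ A : Finset (ℤ × ℤ), ∀ v : ℤ × ℤ, v ∈ A ↔ (nm (v - z) : ℝ) < d := by
  obtain ⟨F, hF⟩ := H45.box_fin z (⌈d⌉ - 1)
  refine ⟨F, fun v => ?_⟩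
  rw [hF]
  constructor
  · intro h
    have : nm (v - z) < ⌈d⌉ := by omega
    exact Int.lt_ceil.1 this
  · intro h
    have := Int.lt_ceil.2 h
    omega

open Classical in
theorem Cn_sum {d : ℝ} {z : ℤ × ℤ} {A : Finset (ℤ × ℤ)} (hA : ∀ v : ℤ × ℤ, (nm (v - z) : ℝ) < d →
    v ∈ A) (ω : Cfg) : Cn d z ω = ∑ ℓ ∈ smf A d ω, if z ∈ ins ℓ then 1 else 0 := by
  unfold Cn
  rw [CS_sub hA, sum_boole, show {ℓ | ℓ ∈ smf A d ω ∧ z ∈ ins ℓ} =
    (((smf A d ω).filter fun ℓ => z ∈ ins ℓ : Finset (Finset Ed)) : Set (Finset Ed)) by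
      ext ℓ; simp, Set.ncard_coe_finset]

theorem Cn_loc {d : ℝ} {z : ℤ × ℤ} {A : Finset (ℤ × ℤ)} (hA : ∀ v : ℤ × ℤ, (nm (v - z) : ℝ) < d →
    v ∈ A) {ω ω' : Cfg} (hw : ∀ v ∈ fat A d, ω v = ω' v) : Cn d z ω = Cn d z ω' := by
  classical
  rw [Cn_sum hA, Cn_sum hA, smf_loc' A d hw]

theorem Cn_int (d : ℝ) (z : ℤ × ℤ) : Integrable (Cn d z) μ := by
  obtain ⟨A, hA⟩ := exists_ball z d
  exact H45.loc_int (fat A d) fun ω ω' hw => Cn_loc (fun v hv => (hA v).2 hv) hw

theorem Cn_meas (d : ℝ) (z : ℤ × ℤ) : Measurable (Cn d z) := by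
  obtain ⟨A, hA⟩ := exists_ball z d
  exact H45.meas_locfun (fat A d) fun ω ω' hw => Cn_loc (fun v hv => (hA v).2 hv) hw

/-- **The mean number of small loops around a site does not depend on the site.** -/
theorem mean_cn (d : ℝ) (z : ℤ × ℤ) : ∫ ω, Cn d z ω ∂μ = ∫ ω, Cn d 0 ω ∂μ := by
  have h1 : ∫ ω, Cn d z ω ∂(μ.map (shC z)) = ∫ ω, Cn d z (shC z ω) ∂μ :=
    integral_map (mp_shC z).measurable.aemeasurable
      ((mp_shC z).map_eq.symm ▸ (Cn_meas d z).aestronglyMeasurable)
  rw [(mp_shC z).map_eq] at h1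
  rw [h1]
  refine integral_congr_ae (ae_of_all _ fun ω => ?_)
  have := Cn_sh d 0 z ω
  rwa [zero_add] at this

/-- The sum of the masses of the small loops. -/
theorem sum_G {f : ℤ × ℤ → ℝ} {F : Finset (ℤ × ℤ)} (hF : ∀ s ∉ F, f s = 0) {d : ℝ}
    {A : Finset (ℤ × ℤ)} (hA : ∀ s ∈ F, f s ≠ 0 → ∀ v : ℤ × ℤ, (nm (v - s) : ℝ) < d → v ∈ A)
    (ω : Cfg) : ∑ ℓ ∈ smf A d ω, G f ℓ = ∑ s ∈ F, f s * Cn d s ω := by
  classical
  have h1 : ∀ ℓ ∈ smf A d ω, G f ℓ = ∑ s ∈ F, f s * (if s ∈ ins ℓ then 1 else 0) := by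
    intro ℓ hℓ
    have hfin := H45.ins_fin s_out (mem_smf.1 hℓ).1
    unfold G
    rw [finsum_mem_eq_sum_of_inter_support_eq (t := F.filter fun s => s ∈ ins ℓ), sum_filter]
    · exact sum_congr rfl fun s _ => by split_ifs <;> simp
    · ext s
      simp only [Set.mem_inter_iff, Function.mem_support, coe_filter, Set.mem_setOf_eq]
      constructor
      · rintro ⟨g1, g2⟩
        exact ⟨⟨by_contra fun h => g2 (hF s h), g1⟩, g2⟩
      · rintro ⟨⟨-, g1⟩, g2⟩
        exact ⟨g1, g2⟩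
  rw [sum_congr rfl h1, sum_comm]
  refine sum_congr rfl fun s hs => ?_
  rw [← mul_sum]
  by_cases h0 : f s = 0
  · rw [h0, zero_mul, zero_mul]
  · rw [Cn_sum (hA s hs h0)]

/-- **The mean of the sum of the masses of the small loops.** -/
theorem mean_G {f : ℤ × ℤ → ℝ} {F : Finset (ℤ × ℤ)} (hF : ∀ s ∉ F, f s = 0) {d : ℝ}
    {A : Finset (ℤ × ℤ)} (hA : ∀ s ∈ F, f s ≠ 0 → ∀ v : ℤ × ℤ, (nm (v - s) : ℝ) < d → v ∈ A) :
    ∫ ω, ∑ ℓ ∈ smf A d ω, G f ℓ ∂μ = (∑ s ∈ F, f s) * ∫ ω, Cn d 0 ω ∂μ := by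
  simp only [sum_G hF hA]
  rw [integral_finsetSum _ fun s _ => (Cn_int d s).const_mul _, sum_mul]
  refine sum_congr rfl fun s _ => ?_
  rw [integral_const_mul, mean_cn]

end Vale.Agent.P167.H135
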