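import Vale.Agent.P167.H135.TipArm
import Vale.Agent.P167.H945.Sym
import Vale.Agent.P167.H192.TA.Geo

/-!
# P167, block NORM: the flat point

`flat_ge`: the probability that no strand of the upper face passes over the flat point in the box of
radius `R` is comparable to the one for the box of radius `L ≤ Λ R`.
-/

namespace Vale.Agent.P167.H135

open MeasureTheory Vale.Agent.P145.FB Vale.Agent.P153 Vale.Agent.P153.Topo Vale.Agent.P167
  Vale.Agent.P167.H871 Vale.Agent.P167.H632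
open Vale.Agent.P167.H199 (ret Returns ret_min ret_le)
open Vale.Agent.P167.H945 (FLL Ln cb)
open Relation

/-- The edges of the row `-1`. -/
theorem Ln_m1 (t : ℤ) : Ln true (-1) t = Sum.inr (t, -1) := rfl

theorem row_of {e : Ed} (h1 : 0 ≤ (tlv e).2) (h2 : (hdv e).2 < 0) : ∃ t, e = Sum.inr (t, -1) := by
  rcases e with ⟨x, y⟩ | ⟨x, y⟩ <;> by_cases hp : Even (x + y) <;>
    simp only [hdv, tlv, hp, if_true, if_false] at h1 h2
  · omega
  · omega
  · exact ⟨x, by congr 2; omega⟩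
  · omega

theorem row_up {t : ℤ} : sg (Sum.inr (t, -1)) = 1 ↔ (hdv (Sum.inr (t, -1))).2 = 0 := by
  by_cases hp : Even (t + -1) <;> simp [sg, hdv, hp]

theorem row_dn {t : ℤ} (h : 0 ≤ (tlv (Sum.inr (t, -1))).2) : sg (Sum.inr (t, -1)) = -1 := by
  by_cases hp : Even (t + -1)
  · simp [sg, hp]
  · simp [tlv, hp] at h

theorem row_ls {t : ℤ} : (sg (Sum.inr (t, -1)) = 1 ∧ ls (Sum.inr (t, -1)) = (t, 0)) ∨
    (sg (Sum.inr (t, -1)) = -1 ∧ ls (Sum.inr (t, -1)) = (t + 1, 0)) := by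
  by_cases hp : Even (t + -1) <;> simp [sg, ls, hp]

theorem sg_par {t : ℤ} : (sg (Sum.inr (t, -1)) = 1 ↔ t % 2 = 0) ∧
    (sg (Sum.inr (t, -1)) = -1 ↔ t % 2 = 1) := by
  by_cases hp : Even (t + -1)
  · have h1 : sg (Sum.inr (t, -1)) = -1 := by simp [sg, hp]
    rw [Int.even_iff] at hp
    rw [h1]
    omega
  · have h1 : sg (Sum.inr (t, -1)) = 1 := by simp [sg, hp]
    rw [Int.even_iff] at hp
    rw [h1]
    omega

theorem row_rs {t : ℤ} : (sg (Sum.inr (t, -1)) = 1 ∧ rs (Sum.inr (t, -1)) = (t + 1, 0)) ∨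
    (sg (Sum.inr (t, -1)) = -1 ∧ rs (Sum.inr (t, -1)) = (t, 0)) := by
  by_cases hp : Even (t + -1) <;> simp [sg, rs, hp]

theorem corner_tl' (e : Ed) :
    ((ls e).1 = (tlv e).1 ∨ (ls e).1 = (tlv e).1 + 1) ∧
      ((ls e).2 = (tlv e).2 ∨ (ls e).2 = (tlv e).2 + 1) ∧
      ((rs e).1 = (tlv e).1 ∨ (rs e).1 = (tlv e).1 + 1) ∧
      ((rs e).2 = (tlv e).2 ∨ (rs e).2 = (tlv e).2 + 1) := by
  rcases e with ⟨x, y⟩ | ⟨x, y⟩ <;> by_cases h : Even (x + y) <;>
    simp [ls, rs, tlv, h]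

/-- A strand which starts upwards stays above the line until it meets the line. -/
theorem stay_up {ω : Cfg} {e : Ed} (h0 : 0 ≤ (hdv e).2) {k : ℕ}
    (h : ∀ j : ℕ, 1 ≤ j → j ≤ k → ∀ t, (nx ω)^[j] e ≠ Sum.inr (t, -1)) :
    ∀ j ≤ k, 0 ≤ (hdv ((nx ω)^[j] e)).2 := by
  intro j
  induction j with
  | zero => intro _; exact h0
  | succ j ih =>
    intro hj
    by_contra hn
    have h1 := ih (by omega)
    have h2 : 0 ≤ (tlv ((nx ω)^[j + 1] e)).2 := by
      rw [Function.iterate_succ_apply', tlv_nx]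
      exact h1
    obtain ⟨t, ht⟩ := row_of h2 (by omega)
    exact h (j + 1) (by omega) hj t ht

/-- The squares of an edge near `ls`. -/
theorem hdv_near {e : Ed} {R : ℤ} (h : nm (ls e) < R) : hdv e ∈ cb R := by
  have := H166.corner e
  have h1 : nm (ls e) ≤ R - 1 := by omega
  rw [nm_le] at h1
  show -R ≤ (hdv e).1 ∧ (hdv e).1 < R ∧ -R ≤ (hdv e).2 ∧ (hdv e).2 < R
  omega

theorem ls_near {t R : ℤ} (h : nm (ls (Sum.inr (t, -1))) ≤ R) : -(R + 1) ≤ t ∧ t ≤ R + 1 := by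
  rw [nm_le] at h
  rcases row_ls (t := t) with ⟨-, h1⟩ | ⟨-, h1⟩ <;> rw [h1] at h <;> simp only at h <;> omega

/-- **No strand over the flat point: the site is joined to distance `R`.** -/
theorem noFLL_sub_OA {R : ℤ} (hR : 1 ≤ R) :
    {ω | ¬ FLL true (-1) 0 1 (cb R) ω} ⊆ OA true true (0, 0) R := by
  classical
  intro ω hω
  have hω' : ¬ FLL true (-1) 0 1 (cb R) ω := hω
  obtain ⟨S, hS⟩ : ∃ S : Finset Ed, S = (Finset.Icc (-(R + 1)) (R + 1)).image
    fun t => (Sum.inr (t, -1) : Ed) := ⟨_, rfl⟩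
  obtain ⟨P, hP⟩ : ∃ P : Finset Ed, P = (Finset.Icc 0 (R + 1)).image
    fun t => (Sum.inr (t, -1) : Ed) := ⟨_, rfl⟩
  have mS : ∀ t, (Sum.inr (t, -1) : Ed) ∈ S ↔ -(R + 1) ≤ t ∧ t ≤ R + 1 := by
    intro t
    rw [hS, Finset.mem_image]
    constructor
    · rintro ⟨s, hs, h⟩
      obtain rfl : s = t := by simpa using h
      exact Finset.mem_Icc.1 hs
    · exact fun h => ⟨t, Finset.mem_Icc.2 h, rfl⟩
  have mP : ∀ t, (Sum.inr (t, -1) : Ed) ∈ P ↔ 0 ≤ t ∧ t ≤ R + 1 := by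
    intro t
    rw [hP, Finset.mem_image]
    constructor
    · rintro ⟨s, hs, h⟩
      obtain rfl : s = t := by simpa using h
      exact Finset.mem_Icc.1 hs
    · exact fun h => ⟨t, Finset.mem_Icc.2 h, rfl⟩
  have exS : ∀ e ∈ S, ∃ t, e = Sum.inr (t, -1) := by
    intro e he
    rw [hS, Finset.mem_image] at he
    obtain ⟨t, -, h⟩ := he
    exact ⟨t, h.symm⟩
  have exP : ∀ e ∈ P, ∃ t, e = Sum.inr (t, -1) := by
    intro e he
    rw [hP, Finset.mem_image] at he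
    obtain ⟨t, -, h⟩ := he
    exact ⟨t, h.symm⟩
  have hPS : P ⊆ S := by
    intro e he
    obtain ⟨t, rfl⟩ := exP e he
    rw [mP] at he
    rw [mS]
    omega
  have cT : ∀ e : Ed, col true e = ls e := fun e => rfl
  have nz : ∀ v : Pt, nm (v - ((0, 0) : Pt)) = nm v := fun v => by
    rw [show ((0, 0) : Pt) = 0 from rfl, sub_zero]
  have near : ∀ {t : ℤ}, nm (ls (Sum.inr (t, -1))) ≤ R → (Sum.inr (t, -1) : Ed) ∈ S :=
    fun h => (mS _).2 (ls_near h)
  have par1 : ∀ t : ℤ, sg (Sum.inr (t, -1)) = -1 → t % 2 = 1 := fun t h => sg_par.2.1 h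
  -- upward edges of `P` stay above the line
  have up : ∀ e ∈ P, sg e = 1 → ∀ k : ℕ, (∀ j : ℕ, 1 ≤ j → j ≤ k → (nx ω)^[j] e ∉ S) →
      (∀ j ≤ k, nm (ls ((nx ω)^[j] e)) ≤ R) → ∀ j ≤ k, 0 ≤ (hdv ((nx ω)^[j] e)).2 := by
    intro e he hs k h1 h2
    obtain ⟨t, rfl⟩ := exP e he
    refine stay_up (row_up.1 hs).ge fun j hj hjk t' ht' => ?_
    have h3 := h1 j hj hjk
    have h4 := h2 j hjk
    rw [ht'] at h3 h4
    exact h3 (near h4)
  have key := tip_arm (ω := ω) (S := S) (P := P) (c := true) (T := (0, 0)) (σ := 1) (R := R)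
    (Rg := hp (0, 0)) hR hPS (show (0 : ℤ) ≤ 0 from le_rfl)
    (by
      intro e he e' he' hs hs' h
      obtain ⟨t, rfl⟩ := exP e he
      obtain ⟨t', rfl⟩ := exP e' he'
      rw [cT, cT] at h
      rcases row_ls (t := t) with ⟨h1, -⟩ | ⟨-, h1⟩
      · rw [h1] at hs; omega
      rcases row_ls (t := t') with ⟨h2, -⟩ | ⟨-, h2⟩
      · rw [h2] at hs'; omega
      rw [h1, h2, Prod.mk.injEq] at h
      have : t = t' := by omega
      rw [this])
    (by
      intro e he hs h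
      obtain ⟨t, rfl⟩ := exP e he
      rw [mP] at he
      rw [cT, nz] at h
      rcases row_ls (t := t) with ⟨h1, -⟩ | ⟨-, h1⟩
      · rw [h1] at hs; omega
      have hpar := par1 t hs
      have h2 : t + 1 < R := by
        rw [h1] at h
        have : nm ((t + 1, 0) : Pt) ≤ R - 1 := by omega
        rw [nm_le] at this
        simp only at this
        omega
      refine ⟨Sum.inr (t + 1, -1), (mP _).2 (by omega), sg_par.1.2 (by omega), ?_⟩
      rw [cT, cT, h1]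
      rcases row_ls (t := t + 1) with ⟨-, h3⟩ | ⟨h3, -⟩
      · exact h3
      · have := sg_par.2.1 h3
        omega)
    (by
      refine ⟨Sum.inr (0, -1), (mP _).2 (by omega), sg_par.1.2 rfl, ?_⟩
      rw [cT]
      rcases row_ls (t := 0) with ⟨-, h3⟩ | ⟨h3, -⟩
      · exact h3
      · have := sg_par.2.1 h3
        omega)
    (by
      intro e he hs h
      obtain ⟨t, rfl⟩ := exP e he
      rw [mP] at he
      rw [cT] at h
      rcases row_ls (t := t) with ⟨h1, -⟩ | ⟨-, h1⟩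
      · rw [h1] at hs; omega
      rw [h1, Prod.mk.injEq] at h
      omega)
    (by
      intro e he hs k h1 h2
      have h2' : ∀ j ≤ k, nm (ls ((nx ω)^[j] e)) ≤ R := fun j hj => by
        have := h2 j hj
        rwa [cT, nz] at this
      show 0 ≤ (ls ((nx ω)^[k] e)).2
      rcases Nat.eq_zero_or_pos k with rfl | hk
      · obtain ⟨t, rfl⟩ := exP e he
        show 0 ≤ (ls (Sum.inr (t, -1))).2
        rcases row_ls (t := t) with ⟨-, h3⟩ | ⟨-, h3⟩ <;> rw [h3]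
      · obtain ⟨m, rfl⟩ : ∃ m, k = m + 1 := ⟨k - 1, by omega⟩
        have h3 := up e he hs m (fun j hj hjm => h1 j hj (by omega)) (fun j hj => h2' j (by omega))
          m le_rfl
        rw [← tlv_nx ω] at h3
        have h4 := corner_tl' (nx ω ((nx ω)^[m] e))
        rw [Function.iterate_succ_apply']
        omega)
    (by
      intro e he hs hret h2
      have h2' : ∀ j ≤ ret (nx ω) S e, nm (ls ((nx ω)^[j] e)) < R := fun j hj => by
        have := h2 j hj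
        rwa [cT, nz] at this
      obtain ⟨hn1, hn2⟩ := hret.spec
      obtain ⟨n, hn⟩ : ∃ n, n = ret (nx ω) S e := ⟨_, rfl⟩
      rw [← hn] at hn1 hn2 h2' ⊢
      have hmin : ∀ j : ℕ, 1 ≤ j → j < n → (nx ω)^[j] e ∉ S := fun j h3 h4 =>
        ret_min h3 (hn ▸ h4)
      obtain ⟨m, rfl⟩ : ∃ m, n = m + 1 := ⟨n - 1, by omega⟩
      have h3 := up e he hs m (fun j hj hjm => hmin j hj (by omega))
        (fun j hj => (h2' j (by omega)).le)
      obtain ⟨t₁, ht₁⟩ := exS _ hn2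
      have h5 : 0 ≤ (tlv (Sum.inr (t₁, -1))).2 := by
        have := h3 m le_rfl
        rw [← tlv_nx ω] at this
        rw [Function.iterate_succ_apply'] at ht₁
        rwa [ht₁] at this
      have h6 := row_dn h5
      rw [ht₁]
      refine ⟨(mP _).2 ?_, h6⟩
      have h7 := hn2
      rw [ht₁, mS] at h7
      refine ⟨?_, h7.2⟩
      by_contra hneg
      push Not at hneg
      obtain ⟨t₀, rfl⟩ := exP e he
      rw [mP] at he
      refine hω' ⟨t₀, t₁, m + 1, by omega, ht₁, ?_, ?_, hs, h6, Or.inl ⟨hneg, he.1⟩⟩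
      · intro i hi0 hi t ht
        have h8 := hmin i hi0 hi
        have h9 := h2' i hi.le
        rw [Ln_m1, Ln_m1] at ht
        rw [ht] at h8 h9
        exact h8 (near h9.le)
      · intro i hi
        exact hdv_near (h2' i hi.le))
  obtain ⟨y, hy, hc⟩ := key
  exact ⟨y, hy, hc⟩

/-! ### the converse -/

open Vale.Agent.P167.H192.TA in
/-- The right chain of a strand through squares of `D`. -/
theorem rs_chain' {ω : Cfg} {e : Ed} {n : ℕ} {D : Set Pt} (h : ∀ i < n, hdv ((nx ω)^[i] e) ∈ D) :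
    Pw ({v | ω v = false} ∩ D) (rs e) (rs ((nx ω)^[n] e)) := by
  induction n with
  | zero => exact ReflTransGen.refl
  | succ n ih =>
    have h1 := ih fun i hi => h i (by omega)
    have h2 := h n (by omega)
    rw [Function.iterate_succ_apply']
    obtain ⟨k1, k2⟩ := H166.nx_step ω ((nx ω)^[n] e)
    cases hω : ω (hdv ((nx ω)^[n] e))
    · refine h1.tail ?_
      obtain ⟨a, b, c⟩ := (k2 hω).2
      rw [Set.mem_singleton_iff] at c
      exact ⟨a, b, by rw [c]; exact ⟨hω, h2⟩⟩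
    · rw [(k1 hω).2]
      exact h1

open Vale.Agent.P167.H192.TA in
/-- **An arm of the flat point excludes the strands over it.** -/
theorem OA_sub_noFLL {L : ℤ} (hL : 1 ≤ L) :
    OA true true (0, 0) (L + 2) ⊆ {ω | ¬ FLL true (-1) 0 1 (cb L) ω} := by
  rintro ω ⟨y, hy, hc⟩ ⟨t₀, t₁, n, hn, h1, h2, h3, h4, h5, h6⟩
  have nz : ∀ v : Pt, nm (v - ((0, 0) : Pt)) = nm v := fun v => by
    rw [show ((0, 0) : Pt) = 0 from rfl, sub_zero]
  rw [nz] at hy
  rw [Ln_m1, Ln_m1] at h1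
  rw [Ln_m1] at h3 h4
  rw [Ln_m1] at h5
  have p0 : t₀ % 2 = 0 := sg_par.1.1 h4
  have p1 : t₁ % 2 = 1 := sg_par.2.1 h5
  -- the squares of the strand are above the line
  have hup : ∀ i < n, 0 ≤ (hdv ((nx ω)^[i] (Sum.inr (t₀, -1)))).2 := by
    obtain ⟨m, rfl⟩ : ∃ m, n = m + 1 := ⟨n - 1, by omega⟩
    intro i hi
    exact stay_up (row_up.1 h4).ge (k := m) (fun j hj hjm t => h2 j hj (by omega) t) i (by omega)
  -- the arm, cut at distance `L + 1` of `(0, -1)`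
  have hyb : L + 1 ≤ nm (y - (0, -1)) := by
    have h7 : L + 2 ≤ nm y := hy.ge
    rw [le_nm] at h7 ⊢
    simp only [Prod.fst_sub, Prod.snd_sub]
    omega
  obtain ⟨z, hz, hc1, -⟩ := first_exit (b := (0, -1)) (R := L + 1) hc (by
    show nm (((0, 0) : Pt) - (0, -1)) ≤ L + 1
    rw [nm_le]; simp only [Prod.fst_sub, Prod.snd_sub]; omega) hyb
  -- as a path of squares
  obtain ⟨hm0, hc2⟩ := hc1
  have hpath : ∀ w : Pt, ReflTransGen (fun u v => PStep (cs true ω) u v ∧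
      v ∈ (Rh true (0, 0) ∩ bl (0, 0) (L + 2)) ∩ bl (0, -1) (L + 1)) (0, 0) w →
      w ∈ (Rh true (0, 0) ∩ bl (0, 0) (L + 2)) ∩ bl (0, -1) (L + 1) ∧
      Pw ({v | ω v = true ∧ 0 ≤ v.2} ∩ dq (0, -1) 1 (L + 1)) (0, 0) w := by
    intro w hw
    induction hw with
    | refl => exact ⟨hm0, ReflTransGen.refl⟩
    | @tail u v _ huv ih =>
      obtain ⟨ih1, ih2⟩ := ih
      refine ⟨huv.2, ih2.tail ⟨huv.1.1, huv.1.2.1, ?_⟩⟩
      have m1 : 0 ≤ u.2 := ih1.1.1
      have m2 : 0 ≤ v.2 := huv.2.1.1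
      have m3 : nm (u - (0, -1)) ≤ L + 1 := ih1.2
      have m4 : nm (v - (0, -1)) ≤ L + 1 := huv.2.2
      rw [nm_le] at m3 m4
      simp only [Prod.fst_sub, Prod.snd_sub] at m3 m4
      obtain ⟨a1, a2, a3⟩ := huv.1
      refine ⟨⟨a3, ?_⟩, ?_⟩
      · show 0 ≤ min u.2 v.2
        omega
      · simp only [dq, Set.mem_ofPred_eq]
        omega
  have hA := (hpath z hc2).2
  -- the dual path
  have hB0 := rs_chain' (ω := ω) (e := Sum.inr (t₀, -1)) (n := n)
    (D := {v | 0 ≤ v.2 ∧ v ∈ cb L}) fun i hi => ⟨hup i hi, h3 i hi⟩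
  rw [h1] at hB0
  have r0 : rs (Sum.inr (t₀, -1)) = (t₀ + 1, 0) := by
    rcases row_rs (t := t₀) with ⟨-, h⟩ | ⟨h, -⟩
    · exact h
    · have := sg_par.2.1 h; omega
  have r1 : rs (Sum.inr (t₁, -1)) = (t₁, 0) := by
    rcases row_rs (t := t₁) with ⟨h, -⟩ | ⟨-, h⟩
    · have := sg_par.1.1 h; omega
    · exact h
  rw [r0, r1] at hB0
  obtain ⟨F, hF⟩ : ∃ F : Set Pt, F = {v | ω v = true ∧ 0 ≤ v.2} := ⟨_, rfl⟩
  have hB1 : Pw (Fᶜ ∩ dq (0, -1) 1 (L + 1)) (t₀ + 1, 0) (t₁, 0) := by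
    refine ReflTransGen.mono (fun u v huv => ⟨huv.1, huv.2.1, ?_⟩) _ _ hB0
    have a1 : ω (min u.1 v.1, min u.2 v.2) = false := huv.2.2.1
    have a2 := huv.2.2.2.1
    obtain ⟨b1, b2, b3, b4⟩ := huv.2.2.2.2
    refine ⟨?_, ?_⟩
    · rw [hF]
      rintro ⟨h, -⟩
      rw [a1] at h
      exact absurd h (by simp)
    · simp only [dq, Set.mem_ofPred_eq]
      simp only [Set.mem_ofPred_eq] at a2 b1 b2 b3 b4
      omega
  -- positions of the feet
  have hb0 : -L ≤ t₀ ∧ t₀ < L := by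
    have h := h3 0 (by omega)
    have : hdv (Sum.inr (t₀, -1)) = (t₀, 0) := by
      by_cases hp : Even (t₀ + -1)
      · have h8 : sg (Sum.inr (t₀, -1)) = -1 := by simp [sg, hp]
        rw [h8] at h4; omega
      · simp [hdv, hp]
    rw [Function.iterate_zero, id, this] at h
    exact ⟨h.1, h.2.1⟩
  have hb1 : -L ≤ t₁ ∧ t₁ < L := by
    have h := h3 (n - 1) (by omega)
    have e1 : hdv ((nx ω)^[n - 1] (Sum.inr (t₀, -1))) = tlv (Sum.inr (t₁, -1)) := by
      rw [← tlv_nx ω, ← Function.iterate_succ_apply' (nx ω), ← h1]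
      congr 2
      omega
    have : tlv (Sum.inr (t₁, -1)) = (t₁, 0) := by
      by_cases hp : Even (t₁ + -1)
      · simp [tlv, hp]
      · have h8 : sg (Sum.inr (t₁, -1)) = 1 := by simp [sg, hp]
        rw [h8] at h5; omega
    rw [e1, this] at h
    exact ⟨h.1, h.2.1⟩
  -- the two last steps
  have s0 : t₀ + 1 ≤ -1 ∨ 1 ≤ t₀ + 1 := by omega
  have step : ∀ t : ℤ, t % 2 = 1 → -L ≤ t → t ≤ L → ∃ s : ℤ, (s + -1) % 2 = 1 ∧
      (t < 0 → s ≤ -1) ∧ (0 < t → 1 ≤ s) ∧ PStep (Fᶜ ∩ dq (0, -1) 1 (L + 1)) (t, 0) (s, -1) ∧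
      -(L + 1) ≤ s ∧ s ≤ L + 1 := by
    intro t ht h7 h8
    rcases lt_or_ge t 0 with h9 | h9
    · refine ⟨t - 1, by omega, by omega, by omega, ⟨by dsimp only; omega, by dsimp only; omega,
        ?_, ?_⟩, by omega, by omega⟩
      · rw [hF]
        rintro ⟨-, h⟩
        have : min (0 : ℤ) (-1) = -1 := by norm_num
        simp only at h
        omega
      · simp only [dq, Set.mem_ofPred_eq]
        omega
    · refine ⟨t + 1, by omega, by omega, by omega, ⟨by dsimp only; omega, by dsimp only; omega,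
        ?_, ?_⟩, by omega, by omega⟩
      · rw [hF]
        rintro ⟨-, h⟩
        simp only at h
        omega
      · simp only [dq, Set.mem_ofPred_eq]
        omega
  obtain ⟨a, a1, a2, a3, a4, a5, a6⟩ := step (t₀ + 1) (by omega) (by omega) (by omega)
  obtain ⟨b, b1, b2, b3, b4, b5, b6⟩ := step t₁ (by omega) (by omega) (by omega)
  have hB2 : Pw (Fᶜ ∩ dq (0, -1) 1 (L + 1)) (a, -1) (b, -1) :=
    (ReflTransGen.single a4.symm).trans (hB1.tail b4)
  have hA' : Pw (F ∩ dq (0, -1) 1 (L + 1)) (0, 0) z := by rw [hF]; exact hA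
  have memsr : ∀ s : ℤ, (s ≤ -1 ∨ 1 ≤ s) → -(L + 1) ≤ s → s ≤ L + 1 →
      ((s, -1) : Pt) ∈ sr (0, -1) 1 (L + 1) := by
    intro s h7 h8 h9
    simp only [sr, Set.mem_ofPred_eq]
    omega
  have hy0 : ((0, 0) : Pt) ∈ sr (0, -1) 1 (L + 1) := by
    simp only [sr, Set.mem_ofPred_eq]
    omega
  have hy1 : nm (((0, 0) : Pt) - (0, -1)) ≤ 1 := by
    rw [nm_le]; simp only [Prod.fst_sub, Prod.snd_sub]; omega
  rcases h6 with ⟨h7, h8⟩ | ⟨h7, h8⟩
  · -- `t₁ < 0 ≤ t₀`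
    exact excl (F := F) (b := (0, -1)) (r := 1) (R := L + 1) (e := 0) (q := (a, -1)) (Or.inl rfl)
      le_rfl (by omega) hy0 hy1 hz.ge (by norm_num) hA' (memsr b (Or.inl (b2 h7)) b5 b6)
      (show b ≤ 0 - 1 by have := b2 h7; omega) rfl (show (b + -1) % 2 = 1 - 0 by omega)
      (show 0 + 1 ≤ a by have := a3 (by omega); omega) rfl hB2.symm
  · exact excl (F := F) (b := (0, -1)) (r := 1) (R := L + 1) (e := 0) (q := (b, -1)) (Or.inl rfl)
      le_rfl (by omega) hy0 hy1 hz.ge (by norm_num) hA' (memsr a (Or.inl (a2 (by omega))) a5 a6)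
      (show a ≤ 0 - 1 by have := a2 (by omega); omega) rfl (show (a + -1) % 2 = 1 - 0 by omega)
      (show 0 + 1 ≤ b by have := b3 (by omega); omega) rfl hB2

/-- **Comparison of the flat events of two scales.** -/
theorem flat_ge (Λ : ℕ) : ∃ C : ℝ, 0 < C ∧ ∀ R L : ℤ, 1 ≤ R → 1 ≤ L → L ≤ Λ * R →
    μ.real {ω | ¬ FLL true (-1) 0 1 (cb R) ω} ≤
      C * μ.real {ω | ¬ FLL true (-1) 0 1 (cb L) ω} := by
  obtain ⟨c0, hc0, h⟩ := oa_ext (Λ + 2)
  refine ⟨max 1 (1 / c0), by positivity, fun R L hR hL hLR => ?_⟩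
  have h0 : 0 ≤ μ.real {ω | ¬ FLL true (-1) 0 1 (cb L) ω} := measureReal_nonneg
  rcases le_total L R with hle | hle
  · have h1 : μ.real {ω | ¬ FLL true (-1) 0 1 (cb R) ω} ≤
        μ.real {ω | ¬ FLL true (-1) 0 1 (cb L) ω} := by
      refine measureReal_mono fun ω hω hf => hω (hf.mono ?_)
      rintro v ⟨h1, h2, h3, h4⟩
      exact ⟨by omega, by omega, by omega, by omega⟩
    calc _ ≤ 1 * μ.real {ω | ¬ FLL true (-1) 0 1 (cb L) ω} := by rwa [one_mul]
      _ ≤ _ := mul_le_mul_of_nonneg_right (le_max_left _ _) h0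
  · have h1 := measureReal_mono (μ := μ) (noFLL_sub_OA hR)
    have h2 := measureReal_mono (μ := μ) (OA_sub_noFLL hL)
    have h3 := h true true (0, 0) R (L + 2) rfl hR (by omega) (by push_cast; nlinarith)
    calc μ.real {ω | ¬ FLL true (-1) 0 1 (cb R) ω} ≤ μ.real (OA true true (0, 0) R) := h1
      _ = 1 / c0 * (c0 * μ.real (OA true true (0, 0) R)) := by field_simp
      _ ≤ 1 / c0 * μ.real (OA true true (0, 0) (L + 2)) :=
          mul_le_mul_of_nonneg_left h3 (by positivity)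
      _ ≤ 1 / c0 * μ.real {ω | ¬ FLL true (-1) 0 1 (cb L) ω} :=
          mul_le_mul_of_nonneg_left h2 (by positivity)
      _ ≤ _ := mul_le_mul_of_nonneg_right (le_max_right _ _) h0

/-- The flat event has positive probability. -/
theorem flat_pos {R : ℤ} (hR : 1 ≤ R) : 0 < μ.real {ω | ¬ FLL true (-1) 0 1 (cb R) ω} :=
  (pa_pos true (show 1 ≤ R + 2 by omega)).trans_le (measureReal_mono (OA_sub_noFLL hR))

end Vale.Agent.P167.H135
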