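import Vale.Agent.P167.H135.Tra
import Vale.Agent.P167.H825.Defs2A
import Vale.Agent.P167.H945.Nrm

/-!
# P167, block NORM (N3c'): the factor of the small loops for a neutral flow

`f = dv c` the charge of a flow `c`, far from the cut edges. The product of the weights of the small
loops is at most `gfl = exp (-√3 ∑ (mass of the small loops))`, which is local and has bounded
moments.
-/

namespace Vale.Agent.P167.H135

open Finset MeasureTheory ProbabilityTheory Filter Topology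
open Vale.Agent.P167.A (plane plane_nx plane_sg)
open Vale.Agent.P167.H685 (LE mem_LE loop_gen loop_unique s_fin)
open Vale.Agent.P167.H199 (cang ah at' hb loop_nx loop_iter)
open Vale.Agent.P167.H562 (Em)
open Vale.Agent.P167.H562.SML (smf mem_smf fat mem_fat smf_loc' Bd bd_G sml_lin)
open Vale.Agent.P167.H825 (dv epos)

theorem G_ne {f : ℤ × ℤ → ℝ} {ℓ : Finset Ed} (h : G f ℓ ≠ 0) : ∃ s ∈ ins ℓ, f s ≠ 0 := by
  by_contra hcon
  push Not at hcon
  exact h (finsum_mem_eq_zero_of_forall_eq_zero hcon)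

/-- `log cos` is concave. -/
theorem cos_le {q : ℝ} (hq : |q| ≤ 1 / 2) :
    |2 * Real.cos (Real.pi / 3 + q)| ≤ Real.exp (-(√3) * q) := by
  have hpi := Real.pi_gt_d2
  obtain ⟨h1, h2⟩ := abs_le.1 hq
  -- the function is `1 * (cos q - √3 sin q)`
  have e0 : 2 * Real.cos (Real.pi / 3 + q) = Real.cos q - √3 * Real.sin q := by
    rw [Real.cos_add, Real.cos_pi_div_three, Real.sin_pi_div_three]; ring
  have hcos : 0 < Real.cos (Real.pi / 3 + q) :=
    Real.cos_pos_of_mem_Ioo ⟨by linarith, by linarith⟩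
  rw [abs_of_pos (by positivity)]
  -- monotonicity of `log cos`
  set F : ℝ → ℝ := fun t => Real.log (Real.cos (Real.pi / 3 + t)) + √3 * t with hF
  have hmem : ∀ t ∈ Set.Icc (-(1 / 2 : ℝ)) (1 / 2), 0 < Real.cos (Real.pi / 3 + t) := by
    rintro t ⟨ht1, ht2⟩
    exact Real.cos_pos_of_mem_Ioo ⟨by linarith, by linarith⟩
  have hder : ∀ t ∈ Set.Icc (-(1 / 2 : ℝ)) (1 / 2),
      HasDerivAt F (-Real.tan (Real.pi / 3 + t) + √3) t := by
    intro t ht
    have hc := hmem t ht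
    have d1 : HasDerivAt (fun t => Real.pi / 3 + t) 1 t := (hasDerivAt_id t).const_add _
    have d2 := d1.cos
    have d3 := d2.log hc.ne'
    have d4 := ((hasDerivAt_id t).const_mul (√3))
    refine HasDerivAt.congr_deriv (d3.add d4) ?_
    rw [Real.tan_eq_sin_div_cos]
    simp only [mul_one]
    ring
  have htan3 : Real.tan (Real.pi / 3) = √3 := Real.tan_pi_div_three
  have key : F q ≤ F 0 := by
    rcases le_total 0 q with h | h
    · -- decreasing on `[0, q]`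
      refine antitoneOn_of_deriv_nonpos (convex_Icc 0 (1 / 2)) ?_ ?_ ?_
        (Set.mem_Icc.2 ⟨le_rfl, by norm_num⟩) (Set.mem_Icc.2 ⟨h, h2⟩) h
      · intro t ht
        exact (hder t ⟨by linarith [ht.1], ht.2⟩).continuousAt.continuousWithinAt
      · intro t ht
        rw [interior_Icc] at ht
        exact (hder t ⟨by linarith [ht.1], ht.2.le⟩).differentiableAt.differentiableWithinAt
      · intro t ht
        rw [interior_Icc] at ht
        rw [(hder t ⟨by linarith [ht.1], ht.2.le⟩).deriv]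
        have : Real.tan (Real.pi / 3) ≤ Real.tan (Real.pi / 3 + t) := by
          refine (Real.strictMonoOn_tan.monotoneOn) ⟨by linarith, by linarith⟩
            ⟨by linarith [ht.1], by linarith [ht.2]⟩ (by linarith [ht.1])
        rw [htan3] at this
        linarith
    · refine monotoneOn_of_deriv_nonneg (convex_Icc (-(1 / 2)) 0) ?_ ?_ ?_
        (Set.mem_Icc.2 ⟨h1, h⟩) (Set.mem_Icc.2 ⟨by norm_num, le_rfl⟩) h
      · intro t ht
        exact (hder t ⟨ht.1, by linarith [ht.2]⟩).continuousAt.continuousWithinAt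
      · intro t ht
        rw [interior_Icc] at ht
        exact (hder t ⟨ht.1.le, by linarith [ht.2]⟩).differentiableAt.differentiableWithinAt
      · intro t ht
        rw [interior_Icc] at ht
        rw [(hder t ⟨ht.1.le, by linarith [ht.2]⟩).deriv]
        have : Real.tan (Real.pi / 3 + t) ≤ Real.tan (Real.pi / 3) := by
          refine (Real.strictMonoOn_tan.monotoneOn) ⟨by linarith [ht.1], by linarith [ht.2]⟩
            ⟨by linarith, by linarith⟩ (by linarith [ht.2])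
        rw [htan3] at this
        linarith
  have e1 : F 0 = Real.log (1 / 2) := by
    simp only [hF, add_zero, mul_zero, Real.cos_pi_div_three]
  rw [e1] at key
  have e2 : Real.cos (Real.pi / 3 + q) = Real.exp (Real.log (Real.cos (Real.pi / 3 + q))) :=
    (Real.exp_log hcos).symm
  have key2 : Real.log (Real.cos (Real.pi / 3 + q)) ≤ Real.log (1 / 2) + -(√3) * q := by
    have : F q = Real.log (Real.cos (Real.pi / 3 + q)) + √3 * q := rfl
    rw [this] at key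
    linarith
  rw [e2]
  calc 2 * Real.exp (Real.log (Real.cos (Real.pi / 3 + q)))
      ≤ 2 * Real.exp (Real.log (1 / 2) + -(√3) * q) := by gcongr
    _ = Real.exp (-(√3) * q) := by
        rw [Real.exp_add, Real.exp_log (by norm_num)]; ring

/-- The angle of a loop which does not meet the cuts. -/
theorem cos_cang_loop {ω : Cfg} {ℓ S : Finset Ed} (h : IsLoop ω ℓ) (hd : Disjoint ℓ S)
    {a : Ed → Bool → ℝ} {c : Ed → ℝ} (hac : ∀ e ∉ S, a e true + a e false = c e)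
    {E : Finset Ed} (hc : ∀ e ∉ E, c e = 0) (hfin : (dv c).support.Finite) :
    2 * Real.cos (cang plane (Real.pi / 3) a ω ℓ) = wf (G (dv c) ℓ) := by
  classical
  have hfs : H685.fs c = dv c := by
    funext z
    unfold H685.fs H685.dv dv
    simp
  rw [← hfs, ← H685.fac_plane s_jump H685.s_turn h hc (by rw [hfs]; exact hfin)]
  unfold H685.fac
  congr 2
  unfold cang
  rw [sum_add_distrib]
  have e1 : ∑ x ∈ ℓ, at' plane a (plane.nx ω x) = ∑ x ∈ ℓ, at' plane a x := by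
    refine sum_bij (fun x _ => nx ω x) (fun x hx => loop_nx h hx) ?_ ?_ ?_
    · intro x _ y _ hxy
      exact (s_nx ω).1 hxy
    · intro y hy
      have hmap : ℓ.image (nx ω) = ℓ := by
        refine eq_of_subset_of_card_le ?_ ?_
        · intro z hz
          obtain ⟨x, hx, rfl⟩ := mem_image.1 hz
          exact loop_nx h hx
        · rw [card_image_of_injective _ (s_nx ω).1]
      rw [← hmap] at hy
      obtain ⟨x, hx, hxy⟩ := mem_image.1 hy
      exact ⟨x, hx, hxy⟩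
    · intro x _
      rw [plane_nx]
  rw [e1, ← sum_add_distrib]
  refine sum_congr rfl fun x hx => ?_
  have hxS : x ∉ S := fun hS => Finset.disjoint_left.1 hd hx hS
  rw [← hac x hxS]
  unfold ah at'
  cases hb plane x
  · simp only [Bool.not_false]; ring
  · simp only [Bool.not_true]; ring

/-! ### the charge of a flow -/

theorem fs_eq (c : Ed → ℝ) : H685.fs c = dv c := by
  funext z
  unfold H685.fs H685.dv dv
  simp

theorem dv_ne {c : Ed → ℝ} {z : ℤ × ℤ} (h : dv c z ≠ 0) :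
    ∃ e : Ed, c e ≠ 0 ∧ nm (z - epos e) ≤ 1 := by
  by_contra hcon
  push Not at hcon
  have key : ∀ e : Ed, nm (z - epos e) ≤ 1 → c e = 0 := fun e he => by
    by_contra h0
    have := hcon e h0
    omega
  apply h
  unfold dv
  rw [key (Sum.inl (z.1 - 1, z.2 - 1)), key (Sum.inl (z.1 - 1, z.2)),
    key (Sum.inr (z.1, z.2 - 1)), key (Sum.inr (z.1 - 1, z.2 - 1))]
  · ring
  all_goals simp [nm, epos]

theorem dv_supp {c : Ed → ℝ} {E : Finset Ed} (hc : ∀ e ∉ E, c e = 0) :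
    ∃ F : Finset (ℤ × ℤ), ∀ z ∉ F, dv c z = 0 := by
  classical
  refine ⟨E.biUnion fun e => (H45.box_fin (epos e) 1).choose, fun z hz => ?_⟩
  by_contra h
  obtain ⟨e, he, h1⟩ := dv_ne h
  apply hz
  rw [mem_biUnion]
  exact ⟨e, by_contra fun h2 => he (hc e h2), ((H45.box_fin (epos e) 1).choose_spec z).2 h1⟩

/-- **A finitely supported flow is neutral.** -/
theorem dv_sum {c : Ed → ℝ} {E : Finset Ed} (hc : ∀ e ∉ E, c e = 0) {F : Finset (ℤ × ℤ)}
    (hF : ∀ z ∉ F, dv c z = 0) : ∑ z ∈ F, dv c z = 0 := by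
  classical
  have hcs : (Function.support c).Finite := E.finite_toSet.subset fun e he =>
    by_contra fun h => he (hc e h)
  have key : ∀ (φ : ℤ × ℤ → Ed), Function.Injective φ →
      Summable fun z => c (φ z) := by
    intro φ hφ
    refine summable_of_hasFiniteSupport ?_
    exact hcs.preimage hφ.injOn
  have i1 : Function.Injective fun v : ℤ × ℤ => (Sum.inl v : Ed) := Sum.inl_injective
  have i2 : Function.Injective fun v : ℤ × ℤ => (Sum.inr v : Ed) := Sum.inr_injective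
  have sh : ∀ (a b : ℤ) (g : ℤ × ℤ → ℝ), ∑' z : ℤ × ℤ, g (z.1 - a, z.2 - b) = ∑' z, g z := by
    intro a b g
    exact (trS (a, b)).tsum_eq g
  have hs : ∀ (a b : ℤ), Function.Injective fun z : ℤ × ℤ => ((z.1 - a, z.2 - b) : ℤ × ℤ) :=
    fun a b => (trS (a, b)).injective
  have h1 : ∑ z ∈ F, dv c z = ∑' z, dv c z := (tsum_eq_sum fun z hz => hF z hz).symm
  have s1 : Summable fun z : ℤ × ℤ => c (Sum.inl (z.1 - 1, z.2 - 1)) := key _ (i1.comp (hs 1 1))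
  have s2 : Summable fun z : ℤ × ℤ => c (Sum.inl (z.1 - 1, z.2 - 0)) := key _ (i1.comp (hs 1 0))
  have s3 : Summable fun z : ℤ × ℤ => c (Sum.inr (z.1 - 0, z.2 - 1)) := key _ (i2.comp (hs 0 1))
  have s4 : Summable fun z : ℤ × ℤ => c (Sum.inr (z.1 - 1, z.2 - 1)) := key _ (i2.comp (hs 1 1))
  have e1 := sh 1 1 (fun v => c (Sum.inl v))
  have e2 := sh 1 0 (fun v => c (Sum.inl v))
  have e3 := sh 0 1 (fun v => c (Sum.inr v))
  have e4 := sh 1 1 (fun v => c (Sum.inr v))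
  rw [h1]
  have h2 : (fun z => dv c z) = fun z : ℤ × ℤ => c (Sum.inl (z.1 - 1, z.2 - 1)) -
      c (Sum.inl (z.1 - 1, z.2 - 0)) + c (Sum.inr (z.1 - 0, z.2 - 1)) -
      c (Sum.inr (z.1 - 1, z.2 - 1)) := by
    funext z
    simp [dv]
  have h3 : ∑' z, dv c z = (∑' z : ℤ × ℤ, c (Sum.inl (z.1 - 1, z.2 - 1))) -
      (∑' z : ℤ × ℤ, c (Sum.inl (z.1 - 1, z.2 - 0))) +
      (∑' z : ℤ × ℤ, c (Sum.inr (z.1 - 0, z.2 - 1))) -
      (∑' z : ℤ × ℤ, c (Sum.inr (z.1 - 1, z.2 - 1))) := by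
    rw [h2]
    rw [Summable.tsum_sub ((s1.sub s2).add s3) s4, Summable.tsum_add (s1.sub s2) s3,
      Summable.tsum_sub s1 s2]
  rw [h3, e1, e2, e3, e4]
  ring

/-- A loop which surrounds a non-zero mass of a flow meets the flow. -/
theorem loop_meet {ω : Cfg} {ℓ : Finset Ed} (h : IsLoop ω ℓ) {c : Ed → ℝ} {E : Finset Ed}
    (hc : ∀ e ∉ E, c e = 0) (hG : G (dv c) ℓ ≠ 0) : ∃ e ∈ ℓ, c e ≠ 0 := by
  classical
  by_contra hcon
  push Not at hcon
  apply hG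
  obtain ⟨F, hF⟩ := dv_supp hc
  have h1 := H685.stokes s_jump h hc
  rw [sum_eq_zero fun e he => by rw [hcon e he, zero_mul], fs_eq] at h1
  have hG' : G (dv c) ℓ = ∑' s : ℤ × ℤ, (ins ℓ).indicator (dv c) s := by
    unfold G
    rw [finsum_mem_def, tsum_eq_finsum]
    exact F.finite_toSet.subset fun s hs => by
      by_contra h0
      apply hs
      by_cases hm : s ∈ ins ℓ
      · rw [Set.indicator_of_mem hm, hF s h0]
      · rw [Set.indicator_of_notMem hm]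
  have key : ∀ ε : ℤ, (∀ s, W ℓ s = 0 ∨ W ℓ s = ε) →
      ∑' s : ℤ × ℤ, (W ℓ s : ℝ) * dv c s = ε * G (dv c) ℓ := by
    intro ε hε
    rw [hG', ← tsum_mul_left]
    refine tsum_congr fun s => ?_
    by_cases hm : s ∈ ins ℓ
    · rw [Set.indicator_of_mem hm]
      rcases hε s with h2 | h2
      · exact absurd h2 hm
      · rw [h2]
    · rw [Set.indicator_of_notMem hm]
      have : W ℓ s = 0 := by_contra fun hn => hm hn
      rw [this]
      simp
  rcases H685.s_turn ω ℓ h with ⟨-, h2⟩ | ⟨-, h2⟩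
  · have := key 1 h2
    rw [← h1] at this
    push_cast at this
    linarith
  · have := key (-1) h2
    rw [← h1] at this
    push_cast at this
    linarith

/-! ### the factor of the small loops -/

theorem nm_tri (u v w : ℤ × ℤ) : (nm (u - w) : ℝ) ≤ nm (u - v) + nm (v - w) := by
  exact_mod_cast H45.nm_sub_le u v w

theorem nm_comm (u v : ℤ × ℤ) : (nm (u - v) : ℝ) = nm (v - u) := by
  rw [H45.nm_sub_comm]

theorem hdv_epos (e : Ed) : nm (hdv e - epos e) ≤ 1 := by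
  rcases e with ⟨x, y⟩ | ⟨x, y⟩ <;> simp only [hdv, epos] <;> split_ifs <;> simp [nm]

theorem fat_near {A : Finset (ℤ × ℤ)} {d : ℝ} {u : ℤ × ℤ} (h : u ∈ fat A d) :
    ∃ v ∈ A, (nm (u - v) : ℝ) ≤ d := by
  rw [fat, mem_biUnion] at h
  obtain ⟨v, hv, h2⟩ := h
  exact ⟨v, hv, Int.le_floor.1 (((H45.box_fin v ⌊d⌋).choose_spec u).1 h2)⟩

/-- The factor of the small loops. -/
noncomputable def gfl (c : Ed → ℝ) (A : Finset (ℤ × ℤ)) (d : ℝ) (ω : Cfg) : ℝ :=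
  Real.exp (-(√3) * ∑ ℓ ∈ smf A d ω, G (dv c) ℓ)

theorem gfl_loc (c : Ed → ℝ) (A : Finset (ℤ × ℤ)) (d : ℝ) {ω ω' : Cfg}
    (hw : ∀ v ∈ fat A d, ω v = ω' v) : gfl c A d ω = gfl c A d ω' := by
  unfold gfl
  rw [smf_loc' A d hw]

open Classical in
/-- **The product over the small loops.** -/
theorem prod_le {c : Ed → ℝ} {A : Finset (ℤ × ℤ)} {d : ℝ} {S E : Finset Ed}
    {a : Ed → Bool → ℝ} (hA : ∀ s v : ℤ × ℤ, dv c s ≠ 0 → (nm (v - s) : ℝ) < d → v ∈ A)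
    (hE : ∀ e ∉ E, c e = 0) (hac : ∀ e ∉ S, a e true + a e false = c e)
    (hS : ∀ e ∈ S, ∀ s : ℤ × ℤ, dv c s ≠ 0 → d ≤ (nm (hdv e - s) : ℝ)) {ω : Cfg}
    (hq : ∀ ℓ, IsLoop ω ℓ → Small d ℓ → |G (dv c) ℓ| ≤ 1 / 2) :
    ∏ ℓ ∈ (LE ω E).filter (fun ℓ => Disjoint ℓ S ∧ Small d ℓ),
      |2 * Real.cos (cang plane (Real.pi / 3) a ω ℓ)| ≤ gfl c A d ω := by
  obtain ⟨F, hF⟩ := dv_supp hE
  have hfin : (dv c).support.Finite := F.finite_toSet.subset fun s hs =>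
    by_contra fun h => hs (hF s h)
  set P := (LE ω E).filter (fun ℓ => Disjoint ℓ S ∧ Small d ℓ) with hP
  have h1 : ∏ ℓ ∈ P, |2 * Real.cos (cang plane (Real.pi / 3) a ω ℓ)| ≤
      ∏ ℓ ∈ P, Real.exp (-(√3) * G (dv c) ℓ) := by
    refine prod_le_prod (fun _ _ => abs_nonneg _) fun ℓ hℓ => ?_
    rw [hP, mem_filter, mem_LE] at hℓ
    rw [cos_cang_loop hℓ.1.1 hℓ.2.1 hac hE hfin]
    exact cos_le (hq ℓ hℓ.1.1 hℓ.2.2)
  refine h1.trans (le_of_eq ?_)
  unfold gfl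
  rw [← Real.exp_sum, ← mul_sum]
  congr 2
  refine sum_congr_of_eq_on_inter ?_ ?_ fun _ _ _ => rfl
  · intro ℓ hℓ hn
    rw [hP, mem_filter, mem_LE] at hℓ
    by_contra h0
    obtain ⟨s, hs, hs'⟩ := G_ne h0
    obtain ⟨v, hv⟩ := H45.vs_nonempty hℓ.1.1
    exact hn (mem_smf.2 ⟨hℓ.1.1, ⟨v, hv, hA s v hs' (near_ins hℓ.1.1 hℓ.2.2 hs hv)⟩, hℓ.2.2⟩)
  · intro ℓ hℓ hn
    rw [mem_smf] at hℓ
    by_contra h0
    apply hn
    rw [hP, mem_filter, mem_LE]
    obtain ⟨e, he, he'⟩ := loop_meet hℓ.1 hE h0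
    refine ⟨⟨hℓ.1, e, by_contra fun h => he' (hE e h), he⟩, ?_, hℓ.2.2⟩
    rw [Finset.disjoint_left]
    intro e' h2 h3
    obtain ⟨s, hs, hs'⟩ := G_ne h0
    have h4 := near_ins hℓ.1 hℓ.2.2 hs (mem_image_of_mem hdv h2)
    have h5 := hS e' h3 s hs'
    linarith

/-- **(N3c'): the small loops of a flow**, moment of any order `q > 0`. -/
theorem small_flow_q (κ R B q : ℝ) (hκ : 0 < κ) (hq : 0 < q) : ∃ κ0 : ℝ, 0 < κ0 ∧ ∀ κ1 : ℝ, 0 < κ1 → κ1 ≤ κ0 →
    ∃ M N0 : ℝ, 0 ≤ M ∧ ∀ n : ℕ, N0 ≤ n → ∀ (c : Ed → ℝ) (P : Set (ℤ × ℤ)),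
      (∀ e, c e ≠ 0 → (nm (epos e) : ℝ) ≤ R * n ∧ ∀ p ∈ P, κ * n ≤ (nm (epos e - p) : ℝ)) →
      (∀ z, |dv c z| ≤ B / n ^ 2) →
      ∃ (F : Finset (ℤ × ℤ)) (g : Cfg → ℝ),
        (∀ v ∈ F, ∀ p ∈ P, κ / 2 * n ≤ (nm (v - p) : ℝ)) ∧
        (∀ ω ω' : Cfg, (∀ v ∈ F, ω v = ω' v) → g ω = g ω') ∧ (∀ ω, 0 < g ω) ∧
        ∫⁻ ω, ENNReal.ofReal (g ω) ^ q ∂μ ≤ ENNReal.ofReal M ∧
        ∀ (ω : Cfg) (S E : Finset Ed) (a : Ed → Bool → ℝ), (∀ e ∈ S, epos e ∈ P) →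
          (∀ e ∉ S, a e true + a e false = c e) → (∀ e, c e ≠ 0 → e ∈ E) →
          (by classical exact ∏ ℓ ∈ (LE ω E).filter (fun ℓ => Disjoint ℓ S ∧ Small (κ1 * n) ℓ),
            |2 * Real.cos (cang plane (Real.pi / 3) a ω ℓ)|) ≤ g ω := by
  classical
  refine ⟨min (κ / 8) (1 / (2 * (|B| + 1))), lt_min (by positivity) (by positivity),
    fun κ1 hκ1 hκ0 => ?_⟩
  have hk8 : κ1 ≤ κ / 8 := hκ0.trans (min_le_left _ _)
  have hkB : κ1 ≤ 1 / (2 * (|B| + 1)) := hκ0.trans (min_le_right _ _)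
  obtain ⟨C, hC0, hC⟩ := sml_lin (R := |R| + 1 + κ1) (κ := κ1) (q * √3 * |B|) (by positivity) hκ1
  refine ⟨Real.exp (C * |B| ^ 2 * (-q * √3) ^ 2), max 1 (8 / κ), (Real.exp_pos _).le,
    fun n hn c P hc hd => ?_⟩
  have hn1 : (1 : ℝ) ≤ n := (le_max_left _ _).trans hn
  have hn8 : 8 ≤ κ * n := by
    have := (le_max_right _ _).trans hn
    rwa [div_le_iff₀ hκ, mul_comm] at this
  have hn0 : (0 : ℝ) < n := by linarith
  -- the support of `c` is finite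
  obtain ⟨F0, hF0⟩ := H45.box_fin 0 ⌊R * n⌋
  have hE0 : ∀ e ∉ (F0.image Sum.inl ∪ F0.image Sum.inr : Finset Ed), c e = 0 := by
    intro e he
    by_contra h0
    apply he
    have h1 : epos e ∈ F0 := (hF0 _).2 (by rw [sub_zero]; exact Int.le_floor.2 (hc e h0).1)
    rw [mem_union]
    rcases e with v | v
    · exact Or.inl (mem_image_of_mem _ h1)
    · exact Or.inr (mem_image_of_mem _ h1)
  obtain ⟨F1, hF1⟩ := dv_supp hE0
  -- the set `A`
  choose Bl hBl using fun z : ℤ × ℤ => exists_ball z (κ1 * n)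
  set A : Finset (ℤ × ℤ) := (F1.filter fun z => dv c z ≠ 0).biUnion Bl with hA
  have hAm : ∀ v, v ∈ A ↔ ∃ s, dv c s ≠ 0 ∧ (nm (v - s) : ℝ) < κ1 * n := by
    intro v
    rw [hA, mem_biUnion]
    constructor
    · rintro ⟨s, hs, hv⟩
      exact ⟨s, (mem_filter.1 hs).2, (hBl s v).1 hv⟩
    · rintro ⟨s, hs, hv⟩
      exact ⟨s, mem_filter.2 ⟨by_contra fun h => hs (hF1 s h), hs⟩, (hBl s v).2 hv⟩
  have hAc : ∀ v ∈ A, ∃ e, c e ≠ 0 ∧ (nm (v - epos e) : ℝ) < κ1 * n + 1 := by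
    intro v hv
    obtain ⟨s, hs, h1⟩ := (hAm v).1 hv
    obtain ⟨e, he, h2⟩ := dv_ne hs
    refine ⟨e, he, ?_⟩
    have h3 := nm_tri v s (epos e)
    have h2' : (nm (s - epos e) : ℝ) ≤ 1 := by exact_mod_cast h2
    linarith
  have hB0 : 0 ≤ B := by
    have h1 := (abs_nonneg _).trans (hd 0)
    by_contra h
    push Not at h
    have : B / n ^ 2 < 0 := div_neg_of_neg_of_pos h (by positivity)
    linarith
  have hBB : |B| = B := abs_of_nonneg hB0
  have hbd : Bd κ1 n |B| (fun ℓ => G (dv c) ℓ) := bd_G hn1 (abs_nonneg B) (by rwa [hBB])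
  have hmean : ∫ ω, ∑ ℓ ∈ smf A (κ1 * n) ω, G (dv c) ℓ ∂μ = 0 := by
    rw [mean_G hF1 fun s _ hs v hv => (hAm v).2 ⟨s, hs, hv⟩, dv_sum hE0 hF1, zero_mul]
  have hκn : κ1 * n ≤ κ * n / 8 := by nlinarith
  refine ⟨fat A (κ1 * n), gfl c A (κ1 * n), ?_, fun ω ω' hw => gfl_loc c A _ hw,
    fun ω => Real.exp_pos _, ?_, ?_⟩
  · intro u hu p hp
    obtain ⟨v, hv, h1⟩ := fat_near hu
    obtain ⟨e, he, h2⟩ := hAc v hv
    have h3 := (hc e he).2 p hp
    have h4 := nm_tri (epos e) v p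
    have h5 := nm_tri v u p
    have h6 := nm_comm (epos e) v
    have h7 := nm_comm v u
    linarith
  · have h1 := hC n hn1 0 A (fun v hv => by
      obtain ⟨e, he, h2⟩ := hAc v hv
      have h3 := (hc e he).1
      have h4 := nm_tri v (epos e) 0
      rw [sub_zero (epos e)] at h4
      have h5 : R * n ≤ |R| * n := mul_le_mul_of_nonneg_right (le_abs_self R) hn0.le
      nlinarith) (fun ℓ => G (dv c) ℓ) |B| (abs_nonneg B) hbd (-q * √3) (by
        rw [abs_mul, abs_neg, abs_of_nonneg (Real.sqrt_nonneg 3), abs_of_pos hq])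
    refine le_trans (le_of_eq ?_) h1
    unfold Em
    refine lintegral_congr fun ω => ?_
    unfold gfl
    rw [ENNReal.ofReal_rpow_of_pos (Real.exp_pos _), ← Real.exp_mul]
    congr 2
    show _ = -q * √3 * (∑ ℓ ∈ smf A (κ1 * n) ω, G (dv c) ℓ -
      ∫ ω, ∑ ℓ ∈ smf A (κ1 * n) ω, G (dv c) ℓ ∂μ)
    rw [hmean]
    ring
  · intro ω S E a hSP hac hcE
    refine prod_le (fun s v hs hv => (hAm v).2 ⟨s, hs, hv⟩) (fun e he => ?_) hac ?_ ?_
    · by_contra h0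
      exact he (hcE e h0)
    · intro e he s hs
      obtain ⟨e', he', h1⟩ := dv_ne hs
      have h2 := (hc e' he').2 _ (hSP e he)
      have h3 := nm_tri (epos e') s (epos e)
      have h4 := nm_tri s (hdv e) (epos e)
      have h5 : (nm (hdv e - epos e) : ℝ) ≤ 1 := by exact_mod_cast hdv_epos e
      have h6 : (nm (s - epos e') : ℝ) ≤ 1 := by exact_mod_cast h1
      have h7 := nm_comm (epos e') s
      have h8 := nm_comm s (hdv e)
      linarith
    · intro ℓ hℓ hs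
      have h1 := hbd ω ℓ (κ1 * n) hℓ le_rfl hs
      refine h1.trans ?_
      have h2 : κ1 * n / n = κ1 := by field_simp
      rw [h2]
      have h3 : κ1 * (2 * (|B| + 1)) ≤ 1 := by
        rwa [le_div_iff₀ (by positivity)] at hkB
      have h4 : 0 ≤ |B| := abs_nonneg B
      have h5 : κ1 ≤ 1 / 2 := by nlinarith
      nlinarith

/-- **(N3c'): the small loops of a flow.** -/
theorem small_flow (κ R B : ℝ) (hκ : 0 < κ) : ∃ κ0 : ℝ, 0 < κ0 ∧ ∀ κ1 : ℝ, 0 < κ1 → κ1 ≤ κ0 →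
    ∃ M N0 : ℝ, 0 ≤ M ∧ ∀ n : ℕ, N0 ≤ n → ∀ (c : Ed → ℝ) (P : Set (ℤ × ℤ)),
      (∀ e, c e ≠ 0 → (nm (epos e) : ℝ) ≤ R * n ∧ ∀ p ∈ P, κ * n ≤ (nm (epos e - p) : ℝ)) →
      (∀ z, |dv c z| ≤ B / n ^ 2) →
      ∃ (F : Finset (ℤ × ℤ)) (g : Cfg → ℝ),
        (∀ v ∈ F, ∀ p ∈ P, κ / 2 * n ≤ (nm (v - p) : ℝ)) ∧
        (∀ ω ω' : Cfg, (∀ v ∈ F, ω v = ω' v) → g ω = g ω') ∧ (∀ ω, 0 < g ω) ∧
        ∫⁻ ω, ENNReal.ofReal (g ω) ^ (2 : ℝ) ∂μ ≤ ENNReal.ofReal M ∧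
        ∀ (ω : Cfg) (S E : Finset Ed) (a : Ed → Bool → ℝ), (∀ e ∈ S, epos e ∈ P) →
          (∀ e ∉ S, a e true + a e false = c e) → (∀ e, c e ≠ 0 → e ∈ E) →
          (by classical exact ∏ ℓ ∈ (LE ω E).filter (fun ℓ => Disjoint ℓ S ∧ Small (κ1 * n) ℓ),
            |2 * Real.cos (cang plane (Real.pi / 3) a ω ℓ)|) ≤ g ω :=
  small_flow_q κ R B 2 hκ two_pos

/-- Fourth moment. -/
theorem small_flow4 (κ R B : ℝ) (hκ : 0 < κ) : ∃ κ0 : ℝ, 0 < κ0 ∧ ∀ κ1 : ℝ, 0 < κ1 → κ1 ≤ κ0 →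
    ∃ M N0 : ℝ, 0 ≤ M ∧ ∀ n : ℕ, N0 ≤ n → ∀ (c : Ed → ℝ) (P : Set (ℤ × ℤ)),
      (∀ e, c e ≠ 0 → (nm (epos e) : ℝ) ≤ R * n ∧ ∀ p ∈ P, κ * n ≤ (nm (epos e - p) : ℝ)) →
      (∀ z, |dv c z| ≤ B / n ^ 2) →
      ∃ (F : Finset (ℤ × ℤ)) (g : Cfg → ℝ),
        (∀ v ∈ F, ∀ p ∈ P, κ / 2 * n ≤ (nm (v - p) : ℝ)) ∧
        (∀ ω ω' : Cfg, (∀ v ∈ F, ω v = ω' v) → g ω = g ω') ∧ (∀ ω, 0 < g ω) ∧
        ∫⁻ ω, ENNReal.ofReal (g ω) ^ (4 : ℝ) ∂μ ≤ ENNReal.ofReal M ∧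
        ∀ (ω : Cfg) (S E : Finset Ed) (a : Ed → Bool → ℝ), (∀ e ∈ S, epos e ∈ P) →
          (∀ e ∉ S, a e true + a e false = c e) → (∀ e, c e ≠ 0 → e ∈ E) →
          (by classical exact ∏ ℓ ∈ (LE ω E).filter (fun ℓ => Disjoint ℓ S ∧ Small (κ1 * n) ℓ),
            |2 * Real.cos (cang plane (Real.pi / 3) a ω ℓ)|) ≤ g ω :=
  small_flow_q κ R B 4 hκ (by norm_num)

end Vale.Agent.P167.H135
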