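import Vale.Agent.P167.H632.Prob

/-!
# P167, block NORM, NO4: one-arm probabilities at comparable scales

`Rh h b`: the plane (`h = false`) or the half plane above `b` (`h = true`).
`OA h c b r`: the site `b` is joined to distance `r` by its colour `c`, in `Rh h b`.
`oa_ext`: the probabilities at scales `r ≤ R ≤ K r` are comparable.
`oa_mul`: an arm up to `r` and a crossing of the annulus `(r, R)` cost an arm up to `R`.
-/

namespace Vale.Agent.P167.H135

open MeasureTheory Finset Vale.Agent.P145.FB Vale.Agent.P153 Vale.Agent.P153.Topo Vale.Agent.P167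
  Vale.Agent.P167.H871 Vale.Agent.P167.H632
open Relation

/-- The plane or the half plane above `b`. -/
def Rh (h : Bool) (b : Pt) : Set Pt := if h then hp b else Set.univ

theorem Rh_true (b : Pt) : Rh true b = hp b := rfl

theorem Rh_false (b : Pt) : Rh false b = Set.univ := rfl

theorem hp_sub_Rh (h : Bool) (b : Pt) : hp b ⊆ Rh h b := by
  cases h
  · exact Set.subset_univ _
  · exact subset_rfl

/-- No crossing of the annulus by the other colour. -/
def PC (h c : Bool) (b : Pt) (r R : ℤ) : Set Mk := {ω | NoX (cs c ω) (Rh h b) (pr c) b r R}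

/-- Crossing of the annulus by the colour `c`. -/
def AX (h c : Bool) (b : Pt) (r R : ℤ) : Set Mk :=
  {ω | ∃ y y' : Pt, (y.1 + y.2) % 2 = pr c ∧ nm (y - b) = r ∧ nm (y' - b) = R ∧
    PConn (cs c ω) (Rh h b ∩ an b r R) y y'}

/-- Arm from the site `b`. -/
def OA (h c : Bool) (b : Pt) (r : ℤ) : Set Mk :=
  {ω | ∃ y' : Pt, nm (y' - b) = r ∧ PConn (cs c ω) (Rh h b ∩ bl b r) b y'}

theorem PC_eq (h c : Bool) (b : Pt) (r R : ℤ) : PC h c b r R = (AX h (!c) b r R)ᶜ := by
  ext ω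
  simp only [PC, AX, NoX, Set.mem_compl_iff, Set.mem_ofPred_eq, pr_not, cs_compl]
  push Not
  rfl

/-- The squares of the box. -/
noncomputable def bq (b : Pt) (R : ℤ) : Finset Pt :=
  Finset.Icc (b.1 - R, b.2 - R) (b.1 + R, b.2 + R)

theorem mem_bq {b w : Pt} {R : ℤ} : w ∈ bq b R ↔ w ∈ bl b R := mem_Icc_bl

/-- Squares of the annulus. -/
noncomputable def bqa (b : Pt) (r R : ℤ) : Finset Pt := (bq b R).filter (fun v => r - 1 ≤ nm (v - b))

theorem mem_bqa {b v : Pt} {r R : ℤ} : v ∈ bqa b r R ↔ v ∈ bl b R ∧ r - 1 ≤ nm (v - b) := by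
  rw [bqa, Finset.mem_filter, mem_bq]

theorem sq_mem_bqa {b x y : Pt} {r R : ℤ} {F : Set Pt} (h : PStep F x y) (hx : x ∈ an b r R)
    (hy : y ∈ an b r R) : (min x.1 y.1, min x.2 y.2) ∈ bqa b r R := by
  rw [mem_bqa]
  refine ⟨sq_mem_bl hx.2 hy.2, ?_⟩
  obtain ⟨hx2, hx3⟩ := hx
  obtain ⟨hy2, hy3⟩ := hy
  obtain ⟨h1, h2, -⟩ := h
  rw [le_nm] at *
  simp only [Prod.fst_sub, Prod.snd_sub] at *
  omega

theorem pconn_congr_a {c : Bool} {o o' : Mk} {b : Pt} {r R : ℤ} {Rg : Set Pt}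
    (h : ∀ v ∈ bqa b r R, o v = c → o' v = c) {u v : Pt}
    (huv : PConn (cs c o) (Rg ∩ an b r R) u v) : PConn (cs c o') (Rg ∩ an b r R) u v := by
  obtain ⟨h0, h1⟩ := huv
  induction h1 with
  | refl => exact PConn.refl h0
  | @tail x y hx hxy ih =>
    exact ih.tail ⟨hxy.1.1, hxy.1.2.1, h _ (sq_mem_bqa hxy.1 ih.right_mem.2 hxy.2.2) hxy.1.2.2⟩ hxy.2

theorem pconn_congr_b {c : Bool} {o o' : Mk} {b : Pt} {R : ℤ} {Rg : Set Pt}
    (h : ∀ v ∈ bq b R, o v = c → o' v = c) {u v : Pt}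
    (huv : PConn (cs c o) (Rg ∩ bl b R) u v) : PConn (cs c o') (Rg ∩ bl b R) u v := by
  obtain ⟨h0, h1⟩ := huv
  induction h1 with
  | refl => exact PConn.refl h0
  | @tail x y hx hxy ih =>
    exact ih.tail ⟨hxy.1.1, hxy.1.2.1, h _ (mem_bq.2 (sq_mem_bl ih.right_mem.2 hxy.2.2)) hxy.1.2.2⟩
      hxy.2

theorem dep_AX (h c : Bool) (b : Pt) (r R : ℤ) : Dep (bqa b r R) (AX h c b r R) := by
  rintro o o' ho ⟨y, y', h1, h2, h3, h4⟩
  exact ⟨y, y', h1, h2, h3, pconn_congr_a (fun v hv h => by rw [← ho v hv]; exact h) h4⟩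

theorem inc_AX (h c : Bool) (b : Pt) (r R : ℤ) : IncC c (AX h c b r R) := by
  rintro o o' ho ⟨y, y', h1, h2, h3, h4⟩
  exact ⟨y, y', h1, h2, h3, pconn_congr_a (fun v _ h => ho v h) h4⟩

theorem dep_PC (h c : Bool) (b : Pt) (r R : ℤ) : Dep (bqa b r R) (PC h c b r R) := by
  rw [PC_eq]; exact (dep_AX _ _ _ _ _).compl

theorem inc_PC (h c : Bool) (b : Pt) (r R : ℤ) : IncC c (PC h c b r R) := by
  rw [PC_eq]
  have := (inc_AX h (!c) b r R).compl
  rwa [Bool.not_not] at this

theorem dep_OA (h c : Bool) (b : Pt) (r : ℤ) : Dep (bq b r) (OA h c b r) := by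
  rintro o o' ho ⟨y', h3, h4⟩
  exact ⟨y', h3, pconn_congr_b (fun v hv h => by rw [← ho v hv]; exact h) h4⟩

theorem inc_OA (h c : Bool) (b : Pt) (r : ℤ) : IncC c (OA h c b r) := by
  rintro o o' ho ⟨y', h3, h4⟩
  exact ⟨y', h3, pconn_congr_b (fun v _ h => ho v h) h4⟩

theorem dep_allC (c : Bool) (b : Pt) (R : ℤ) : Dep (bq b R) (allC c b R) :=
  fun o o' ho h w hw => by rw [← ho w hw]; exact h w hw

theorem inc_allC (c : Bool) (b : Pt) (R : ℤ) : IncC c (allC c b R) :=
  fun o o' ho h w hw => ho w (h w hw)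

theorem allC_sub_PC {h c : Bool} {b : Pt} {r R M : ℤ} (hrR : r < R) (hM : r + 1 ≤ M) :
    allC c b M ⊆ PC h c b r R := by
  intro ω hω
  rw [PC_eq, Set.mem_compl_iff]
  rintro ⟨y, y', h1, h2, h3, h4⟩
  obtain ⟨h0, h⟩ := h4
  rcases Relation.ReflTransGen.cases_head h with h5 | ⟨z, ⟨h5, h6⟩, -⟩
  · rw [h5] at h2; omega
  · have hz := (nm_step (b := b) h5).1
    have hw : ω (min y.1 z.1, min y.2 z.2) = c := by
      refine hω _ (mem_Icc_bl.2 (sq_mem_bl ?_ ?_))
      · have : nm (y - b) ≤ M := by omega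
        exact this
      · have : nm (z - b) ≤ M := by omega
        exact this
    have hw' : ω (min y.1 z.1, min y.2 z.2) = !c := h5.2.2
    rw [hw] at hw'
    cases c <;> simp at hw'

/-- **Circuits and half circuits at all scales.** -/
theorem pc_ge : ∃ c0 : ℝ, 0 < c0 ∧ ∀ (h c : Bool) (b : Pt) (r R : ℤ), 1 ≤ r → 8 * r ≤ R →
    c0 ≤ μ.real (PC h c b r R) := by
  obtain ⟨c1, hc1, r0, hr0, h⟩ := ann_ge fair_mu
  have := fair_mu.prob
  obtain ⟨M, hM⟩ : ∃ M : ℤ, M = r0 + 4 := ⟨_, rfl⟩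
  refine ⟨min c1 ((1 / 2 : ℝ) ^ ((2 * M + 1).toNat ^ 2)), by positivity, fun d c b r R hr hR => ?_⟩
  by_cases hs : r < r0 + 3
  · refine (min_le_right _ _).trans ((allC_ge (R := r + 1) (c := c) (b := b) (by omega)).trans ?_)
    exact measureReal_mono (allC_sub_PC (by omega) le_rfl)
  · refine (min_le_left _ _).trans ?_
    push Not at hs
    rw [PC_eq]
    cases c
    · have h1 := (h (r + 2) (by omega) ((b.1 - b.2) / 2) ((b.1 + b.2 - 2) / 2)).2
      refine h1.trans (measureReal_mono ?_)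
      rintro ω hω ⟨y, y', k1, k2, k3, k4⟩
      have k5 : NC (SB ω) (fi y) (fi y') := nc_of_cs (c := true) k1 k4
      have k2' : nm (y - b) ≤ r := k2.le
      have k3' : R ≤ nm (y' - b) := k3.ge
      rw [nm_le] at k2'
      rw [le_nm] at k3'
      simp only [Prod.fst_sub, Prod.snd_sub] at k2' k3'
      refine block (by omega) hω k5 ?_ ?_ ?_ <;> simp only [fi] <;> omega
    · have h1 := (h (r + 2) (by omega) ((b.1 + b.2 - 2) / 2) ((b.1 - b.2) / 2)).1
      refine h1.trans (measureReal_mono ?_)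
      rintro ω hω ⟨y, y', k1, k2, k3, k4⟩
      have k5 : NC (SB ω)ᶜ (fi y) (fi y') := nc_of_cs (c := false) k1 k4
      have k2' : nm (y - b) ≤ r := k2.le
      have k3' : R ≤ nm (y' - b) := k3.ge
      rw [nm_le] at k2'
      rw [le_nm] at k3'
      simp only [Prod.fst_sub, Prod.snd_sub] at k2' k3'
      refine block' (by omega) hω k5 ?_ ?_ ?_ <;> simp only [fi] <;> omega

/-- Gluing in the plane or in the half plane. -/
theorem glue {h : Bool} {c : Bool} {ω : Mk} {b : Pt} {r R : ℤ} (hr : 1 ≤ r) (hrR : r ≤ R)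
    (H : ω ∈ PC h c b r R) {u v u' v' : Pt} (hu : (u.1 + u.2) % 2 = pr c)
    (hu' : (u'.1 + u'.2) % 2 = pr c) (k : PConn (cs c ω) (Rh h b ∩ bl b R) u v)
    (k' : PConn (cs c ω) (Rh h b ∩ bl b R) u' v') (h1 : nm (u - b) < r) (h1' : nm (u' - b) < r)
    (h2 : R ≤ nm (v - b)) (h2' : R ≤ nm (v' - b)) :
    PConn (cs c ω) (Rh h b ∩ bl b R) u u' := by
  cases h
  · rw [Rh_false, Set.univ_inter] at *
    exact plane_glue (pr_or c) hr hrR H hu hu' k k' h1 h1' h2 h2'
  · exact half_glue (pr_or c) hr hrR H hu hu' k k' h1 h1' h2 h2'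

/-- The same for paths which may go further. -/
theorem glue' {h : Bool} {c : Bool} {ω : Mk} {b : Pt} {r R : ℤ} {Rg : Set Pt} (hr : 1 ≤ r)
    (hrR : r ≤ R) (H : ω ∈ PC h c b r R) {u v u' v' : Pt} (hu : (u.1 + u.2) % 2 = pr c)
    (hu' : (u'.1 + u'.2) % 2 = pr c) (hRg : Rg ⊆ Rh h b) (k : PConn (cs c ω) Rg u v)
    (k' : PConn (cs c ω) Rg u' v') (h1 : nm (u - b) < r) (h1' : nm (u' - b) < r)
    (h2 : R ≤ nm (v - b)) (h2' : R ≤ nm (v' - b)) :
    PConn (cs c ω) (Rh h b ∩ bl b R) u u' := by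
  obtain ⟨z, k1, k2, -⟩ := first_exit k (by omega) h2
  obtain ⟨z', k1', k2', -⟩ := first_exit k' (by omega) h2'
  exact glue hr hrR H hu hu' (k2.mono subset_rfl (Set.inter_subset_inter_left _ hRg))
    (k2'.mono subset_rfl (Set.inter_subset_inter_left _ hRg)) h1 h1' k1.ge k1'.ge

theorem bl_mono {b : Pt} {r R : ℤ} (h : r ≤ R) : bl b r ⊆ bl b R := fun _ hw => le_trans hw h

theorem allC_mono {c : Bool} {b : Pt} {r R : ℤ} (h : r ≤ R) : allC c b R ⊆ allC c b r := by
  intro ω hω w hw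
  refine hω w ?_
  rw [mem_Icc_bl] at hw ⊢
  exact bl_mono h hw

theorem allC_sub_OA {h c : Bool} {b : Pt} {r : ℤ} (hr : 1 ≤ r) (hb : (b.1 + b.2) % 2 = pr c) :
    allC c b r ⊆ OA h c b r := by
  intro ω hω
  have k := zig hω r.toNat 0 (Or.inl rfl) (by omega) hr
  have e0 : ((b.1, b.2 + 0) : Pt) = b := Prod.ext rfl (by simp)
  rw [e0] at k
  refine ⟨_, ?_, k.mono subset_rfl (Set.inter_subset_inter_left _ (hp_sub_Rh h b))⟩
  refine le_antisymm k.right_mem.2 ?_
  rw [le_nm]; simp only [Prod.fst_sub, Prod.snd_sub]; omega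

/-- **The arm probabilities at comparable scales are comparable.** -/
theorem oa_ext (K : ℕ) : ∃ c0 : ℝ, 0 < c0 ∧ ∀ (h c : Bool) (b : Pt) (r R : ℤ),
    (b.1 + b.2) % 2 = pr c → 1 ≤ r → r ≤ R → R ≤ K * r →
      c0 * μ.real (OA h c b r) ≤ μ.real (OA h c b R) := by
  obtain ⟨c1, hc1, h1⟩ := pc_ge
  obtain ⟨c2, hc2, h2⟩ := hb_ge (23 * K)
  have := fair_mu.prob
  refine ⟨min (c1 * c2) ((1 / 2 : ℝ) ^ ((2 * (16 * (K : ℤ)) + 1).toNat ^ 2)), by positivity,
    fun h c b r R hb hr hrR hRK => ?_⟩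
  have hK : (0 : ℤ) ≤ K := by positivity
  by_cases hs : r < 16
  · calc _ ≤ min (c1 * c2) ((1 / 2 : ℝ) ^ ((2 * (16 * (K : ℤ)) + 1).toNat ^ 2)) * 1 := by
          gcongr
          exact measureReal_le_one
      _ ≤ (1 / 2 : ℝ) ^ ((2 * (16 * (K : ℤ)) + 1).toNat ^ 2) := by
          rw [mul_one]; exact min_le_right _ _
      _ ≤ μ.real (allC c b R) := allC_ge (by nlinarith)
      _ ≤ _ := measureReal_mono (allC_sub_OA (by omega) hb)
  · push Not at hs
    obtain ⟨s, hs1⟩ : ∃ s : ℤ, s = r / 8 := ⟨_, rfl⟩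
    have e1 := h1 h c b s (8 * s) (by omega) le_rfl
    have e2 := h2 c b (s - 1) R (by omega) (by omega) (by
      push_cast
      have : r ≤ 23 * (s - 1) := by omega
      nlinarith)
    have f1 := fkg_c (dep_OA h c b r) (dep_PC h c b s (8 * s)) (inc_OA h c b r) (inc_PC h c b s (8 * s))
    have f2 := fkg_c ((dep_OA h c b r).inter' (dep_PC h c b s (8 * s))) (dep_HB c b (s - 1) R)
      ((inc_OA h c b r).inter (inc_PC h c b s (8 * s))) (inc_HB c b (s - 1) R)
    calc _ ≤ c1 * c2 * μ.real (OA h c b r) := by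
          gcongr
          exact min_le_left _ _
      _ = (μ.real (OA h c b r) * c1) * c2 := by ring
      _ ≤ (μ.real (OA h c b r) * μ.real (PC h c b s (8 * s))) * μ.real (HB c b (s - 1) R) := by
          gcongr
      _ ≤ μ.real (OA h c b r ∩ PC h c b s (8 * s)) * μ.real (HB c b (s - 1) R) := by gcongr
      _ ≤ _ := f2
      _ ≤ _ := by
        refine measureReal_mono ?_
        rintro ω ⟨⟨⟨z, k1, k2⟩, k3⟩, y, y', k4, k5, k6, k7⟩
        have g := glue' (Rg := Rh h b ∩ bl b R) (by omega) (by omega) k3 hb k4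
          Set.inter_subset_left (k2.mono subset_rfl (Set.inter_subset_inter_right _ (bl_mono hrR)))
          (k7.mono subset_rfl (Set.inter_subset_inter_left _ (hp_sub_Rh h b)))
          (by rw [sub_self]; simp [nm]; omega) (by omega) (by omega) (by omega)
        refine ⟨y', k6, (g.mono subset_rfl ?_).trans
          (k7.mono subset_rfl (Set.inter_subset_inter_left _ (hp_sub_Rh h b)))⟩
        exact Set.inter_subset_inter_right _ (bl_mono (by omega))

theorem AX_sub_PC_path {h c : Bool} {b : Pt} {r R : ℤ} {ω : Mk} (hrR : r ≤ R)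
    {y y' : Pt} (k : PConn (cs c ω) (Rh h b ∩ an b r R) y y') :
    PConn (cs c ω) (Rh h b ∩ bl b R) y y' :=
  k.mono subset_rfl (Set.inter_subset_inter_right _ an_sub_bl)

/-- An arm up to `r` and a crossing of the annulus `(r, R)` are joined at constant cost. -/
theorem oa_mul : ∃ c0 : ℝ, 0 < c0 ∧ ∀ (h c : Bool) (b : Pt) (r R : ℤ),
    (b.1 + b.2) % 2 = pr c → 1 ≤ r → r ≤ R →
      c0 * (μ.real (OA h c b r) * μ.real (AX h c b r R)) ≤ μ.real (OA h c b R) := by
  obtain ⟨c1, hc1, h1⟩ := pc_ge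
  obtain ⟨c2, hc2, h2⟩ := hb_ge 400
  obtain ⟨c3, hc3, h3⟩ := oa_ext 16
  have := fair_mu.prob
  obtain ⟨c4, hc4⟩ : ∃ c4 : ℝ, c4 = (1 / 2 : ℝ) ^ ((2 * (136 : ℤ) + 1).toNat ^ 2) := ⟨_, rfl⟩
  have hc4' : 0 < c4 := by rw [hc4]; positivity
  refine ⟨min c3 (min (c1 * c1 * c2) c4), by positivity, fun h c b r R hb hr hrR => ?_⟩
  by_cases hR : R < 8 * (r + 1)
  · have e := h3 h c b r R hb hr hrR (by push_cast; omega)
    refine le_trans ?_ e
    have : μ.real (OA h c b r) * μ.real (AX h c b r R) ≤ μ.real (OA h c b r) * 1 := by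
      gcongr
      exact measureReal_le_one
    calc _ ≤ c3 * (μ.real (OA h c b r) * 1) := by
          gcongr
          exact min_le_left _ _
      _ = _ := by rw [mul_one]
  push Not at hR
  by_cases hs : r < 16
  · have f1 := fkg_c (dep_allC c b 136) (dep_AX h c b r R) (inc_allC c b 136) (inc_AX h c b r R)
    have e1 : c4 = μ.real (allC c b 136) := by rw [allC_real, hc4]
    calc _ ≤ c4 * (1 * μ.real (AX h c b r R)) := by
          gcongr
          · exact (min_le_right _ _).trans (min_le_right _ _)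
          · exact measureReal_le_one
      _ = μ.real (allC c b 136) * μ.real (AX h c b r R) := by rw [one_mul, e1]
      _ ≤ _ := f1
      _ ≤ _ := by
        refine measureReal_mono ?_
        rintro ω ⟨k1, y, y', k4, k5, k6, k7⟩
        have g0 : ω ∈ PC h c b (r + 1) (8 * (r + 1)) := allC_sub_PC (by omega) (by omega) k1
        obtain ⟨z, z1, z2⟩ := allC_sub_OA (h := h) (by omega) hb
          (allC_mono (r := 8 * (r + 1)) (by omega) k1)
        have k7' := AX_sub_PC_path hrR k7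
        have g := glue' (Rg := Rh h b ∩ bl b R) (by omega) (by omega) g0 hb k4
          Set.inter_subset_left (z2.mono subset_rfl (Set.inter_subset_inter_right _ (bl_mono hR)))
          k7' (by rw [sub_self]; simp [nm]; omega) (by omega) (by omega) (by omega)
        exact ⟨y', k6, (g.mono subset_rfl (Set.inter_subset_inter_right _ (bl_mono hR))).trans k7'⟩
  · push Not at hs
    obtain ⟨s, hs1⟩ : ∃ s : ℤ, s = r / 8 := ⟨_, rfl⟩
    have e1 := h1 h c b s (8 * s) (by omega) le_rfl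
    have e1' := h1 h c b (r + 1) (8 * (r + 1)) (by omega) le_rfl
    have e2 := h2 c b (s - 1) (8 * (r + 1)) (by omega) (by omega) (by push_cast; omega)
    have f1 := fkg_c (dep_OA h c b r) (dep_AX h c b r R) (inc_OA h c b r) (inc_AX h c b r R)
    have d1 := (dep_OA h c b r).inter' (dep_AX h c b r R)
    have i1 := (inc_OA h c b r).inter (inc_AX h c b r R)
    have f2 := fkg_c d1 (dep_PC h c b s (8 * s)) i1 (inc_PC h c b s (8 * s))
    have d2 := d1.inter' (dep_PC h c b s (8 * s))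
    have i2 := i1.inter (inc_PC h c b s (8 * s))
    have f3 := fkg_c d2 (dep_PC h c b (r + 1) (8 * (r + 1))) i2 (inc_PC h c b (r + 1) (8 * (r + 1)))
    have d3 := d2.inter' (dep_PC h c b (r + 1) (8 * (r + 1)))
    have i3 := i2.inter (inc_PC h c b (r + 1) (8 * (r + 1)))
    have f4 := fkg_c d3 (dep_HB c b (s - 1) (8 * (r + 1))) i3 (inc_HB c b (s - 1) (8 * (r + 1)))
    calc _ ≤ c1 * c1 * c2 * (μ.real (OA h c b r) * μ.real (AX h c b r R)) := by
          gcongr
          exact (min_le_right _ _).trans (min_le_left _ _)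
      _ = (μ.real (OA h c b r) * μ.real (AX h c b r R)) * c1 * c1 * c2 := by ring
      _ ≤ (μ.real (OA h c b r) * μ.real (AX h c b r R)) * μ.real (PC h c b s (8 * s)) *
          μ.real (PC h c b (r + 1) (8 * (r + 1))) * μ.real (HB c b (s - 1) (8 * (r + 1))) := by
          gcongr
      _ ≤ μ.real (OA h c b r ∩ AX h c b r R) * μ.real (PC h c b s (8 * s)) *
          μ.real (PC h c b (r + 1) (8 * (r + 1))) * μ.real (HB c b (s - 1) (8 * (r + 1))) := by
          gcongr
      _ ≤ μ.real (OA h c b r ∩ AX h c b r R ∩ PC h c b s (8 * s)) *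
          μ.real (PC h c b (r + 1) (8 * (r + 1))) * μ.real (HB c b (s - 1) (8 * (r + 1))) := by
          gcongr
      _ ≤ μ.real (OA h c b r ∩ AX h c b r R ∩ PC h c b s (8 * s) ∩
          PC h c b (r + 1) (8 * (r + 1))) * μ.real (HB c b (s - 1) (8 * (r + 1))) := by
          gcongr
      _ ≤ _ := f4
      _ ≤ _ := by
        refine measureReal_mono ?_
        rintro ω ⟨⟨⟨⟨⟨z, k1, k2⟩, x, x', m1, m2, m3, m4⟩, k3⟩, k3'⟩, y, y', k4, k5, k6, k7⟩
        have k7' := k7.mono subset_rfl (Set.inter_subset_inter_left _ (hp_sub_Rh h b))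
        have m4' := AX_sub_PC_path hrR m4
        have g := glue' (Rg := Rh h b ∩ bl b (8 * (r + 1))) (by omega) (by omega) k3 hb k4
          Set.inter_subset_left
          (k2.mono subset_rfl (Set.inter_subset_inter_right _ (bl_mono (by omega))))
          k7' (by rw [sub_self]; simp [nm]; omega) (by omega) (by omega) (by omega)
        have g' := glue' (Rg := Rh h b ∩ bl b R) (by omega) (by omega) k3' k4 m1
          Set.inter_subset_left
          (k7'.mono subset_rfl (Set.inter_subset_inter_right _ (bl_mono hR)))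
          m4' (by omega) (by omega) (by omega) (by omega)
        refine ⟨x', m3, ((g.mono subset_rfl ?_).trans (g'.mono subset_rfl ?_)).trans m4'⟩
        · exact Set.inter_subset_inter_right _ (bl_mono (by omega))
        · exact Set.inter_subset_inter_right _ (bl_mono hR)

/-! ### Translations and colours -/

/-- Translation by an even vector. -/
def tre (a : Pt) (o : Mk) : Mk := fun w => o (w.1 + a.1, w.2 + a.2)

/-- Shift of the squares. -/
def eTr (a : Pt) : Pt ≃ Pt where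
  toFun w := (w.1 + a.1, w.2 + a.2)
  invFun w := (w.1 - a.1, w.2 - a.2)
  left_inv w := by simp
  right_inv w := by simp

theorem real_tre {F : Finset Pt} {A : Set Mk} (a : Pt) (hA : Dep F A) :
    μ.real {o | tre a o ∈ A} = μ.real A := by
  have := fair_mu.symm hA (eTr a) (fun _ => false)
  rw [← this]
  congr 1
  ext o
  simp only [Set.mem_ofPred_eq]
  have : tre a o = fun w => xor (o (eTr a w)) false := by
    funext w; simp [tre, eTr]
  rw [this]

theorem path_tre {a : Pt} (ha : (a.1 + a.2) % 2 = 0) {c : Bool} {o : Mk} {Rg : Set Pt} {u v : Pt}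
    (h : PConn (cs c (tre a o)) Rg u v) :
    PConn (cs c o) {w | (w.1 - a.1, w.2 - a.2) ∈ Rg} (u.1 + a.1, u.2 + a.2) (v.1 + a.1, v.2 + a.2) := by
  obtain ⟨h0, h⟩ := h
  induction h with
  | refl =>
    refine PConn.refl ?_
    simp only [Set.mem_ofPred_eq, add_sub_cancel_right]
    exact h0
  | @tail x y _ hxy ih =>
    refine ih.tail ⟨?_, ?_, ?_⟩ ?_
    · have := hxy.1.1; dsimp only; omega
    · have := hxy.1.2.1; dsimp only; omega
    · have h1 : o (min x.1 y.1 + a.1, min x.2 y.2 + a.2) = c := hxy.1.2.2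
      have e : min (x.1 + a.1) (y.1 + a.1) = min x.1 y.1 + a.1 := by omega
      have e' : min (x.2 + a.2) (y.2 + a.2) = min x.2 y.2 + a.2 := by omega
      simp only [cs, Set.mem_ofPred_eq, e, e']
      exact h1
    · simp only [Set.mem_ofPred_eq, add_sub_cancel_right]
      exact hxy.2

/-- The one-arm probability. -/
noncomputable def pa (h : Bool) (r : ℤ) : ℝ := μ.real (OA h true (0, 0) r)

theorem oa_tre_le {h c : Bool} {b a : Pt} {r : ℤ} (ha : (a.1 + a.2) % 2 = 0) :
    μ.real (OA h c b r) ≤ μ.real (OA h c (b.1 + a.1, b.2 + a.2) r) := by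
  have := fair_mu.prob
  rw [← real_tre a (dep_OA h c b r)]
  refine measureReal_mono ?_
  rintro ω ⟨y, h1, h2⟩
  refine ⟨(y.1 + a.1, y.2 + a.2), ?_, (path_tre ha h2).mono subset_rfl ?_⟩
  · rw [← h1]
    congr 1
    refine Prod.ext ?_ ?_ <;> simp
  · rintro w ⟨hw1, hw2⟩
    refine ⟨?_, ?_⟩
    · cases h
      · exact Set.mem_univ _
      · have : b.2 ≤ w.2 - a.2 := hw1
        show b.2 + a.2 ≤ w.2
        omega
    · rw [mem_bl] at hw2 ⊢
      dsimp only at hw2 ⊢
      omega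

theorem oa_tre {h c : Bool} {b a : Pt} {r : ℤ} (ha : (a.1 + a.2) % 2 = 0) :
    μ.real (OA h c (b.1 + a.1, b.2 + a.2) r) = μ.real (OA h c b r) := by
  refine le_antisymm ?_ (oa_tre_le ha)
  have := oa_tre_le (h := h) (c := c) (b := (b.1 + a.1, b.2 + a.2)) (a := (-a.1, -a.2)) (r := r)
    (by dsimp only; omega)
  simpa using this

theorem path_fsh' {o : Mk} {Rg : Set Pt} {u v : Pt} {c : Bool} (h : PConn (cs c (fsh o)) Rg u v) :
    PConn (cs (!c) o) {w | (w.1 - 1, w.2) ∈ Rg} (u.1 + 1, u.2) (v.1 + 1, v.2) := by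
  obtain ⟨h0, h⟩ := h
  induction h with
  | refl =>
    refine PConn.refl ?_
    simp only [Set.mem_ofPred_eq, add_sub_cancel_right]
    exact h0
  | @tail x y _ hxy ih =>
    refine ih.tail ⟨?_, ?_, ?_⟩ ?_
    · have := hxy.1.1; dsimp only; omega
    · exact hxy.1.2.1
    · have h1 : (!(o (min x.1 y.1 + 1, min x.2 y.2))) = c := hxy.1.2.2
      have e : min (x.1 + 1) (y.1 + 1) = min x.1 y.1 + 1 := by omega
      simp only [cs, Set.mem_ofPred_eq, e]
      rw [← h1, Bool.not_not]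
    · simp only [Set.mem_ofPred_eq, add_sub_cancel_right]
      exact hxy.2

theorem oa_fsh_le {h c : Bool} {b : Pt} {r : ℤ} :
    μ.real (OA h c b r) ≤ μ.real (OA h (!c) (b.1 + 1, b.2) r) := by
  have := fair_mu.prob
  rw [← real_fsh (dep_OA h c b r)]
  refine measureReal_mono ?_
  rintro ω ⟨y, h1, h2⟩
  refine ⟨(y.1 + 1, y.2), ?_, (path_fsh' h2).mono subset_rfl ?_⟩
  · rw [← h1]
    congr 1
    refine Prod.ext ?_ ?_ <;> simp
  · rintro w ⟨hw1, hw2⟩
    refine ⟨?_, ?_⟩
    · cases h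
      · exact Set.mem_univ _
      · exact hw1
    · rw [mem_bl] at hw2 ⊢
      dsimp only at hw2 ⊢
      omega

/-- All sites and both colours have the same arm probability. -/
theorem oa_eq (h c : Bool) (b : Pt) (r : ℤ) (hb : (b.1 + b.2) % 2 = pr c) :
    μ.real (OA h c b r) = pa h r := by
  have key : ∀ b : Pt, (b.1 + b.2) % 2 = 0 → μ.real (OA h true b r) = pa h r := by
    intro b hb
    have := oa_tre (h := h) (c := true) (b := (0, 0)) (a := b) (r := r) hb
    simpa [pa] using this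
  cases c
  · have hb' : (b.1 + b.2) % 2 = 1 := hb
    have k1 := oa_fsh_le (h := h) (c := false) (b := b) (r := r)
    have k2 := oa_fsh_le (h := h) (c := true) (b := (b.1 - 1, b.2)) (r := r)
    rw [show (!false) = true from rfl, key _ (by dsimp only; omega)] at k1
    rw [show (!true) = false from rfl, key _ (by dsimp only; omega)] at k2
    simp only [sub_add_cancel] at k2
    exact le_antisymm k1 k2
  · exact key b hb

theorem pa_pos (h : Bool) {r : ℤ} (hr : 1 ≤ r) : 0 < pa h r := by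
  have := fair_mu.prob
  refine lt_of_lt_of_le ?_ (measureReal_mono (allC_sub_OA (h := h) (c := true) (b := (0, 0)) hr rfl))
  rw [allC_real]
  positivity

theorem pa_le_one (h : Bool) (r : ℤ) : pa h r ≤ 1 := by
  have := fair_mu.prob
  exact measureReal_le_one

theorem pa_anti (h : Bool) {r R : ℤ} (hr : 0 ≤ r) (hrR : r ≤ R) : pa h R ≤ pa h r := by
  have := fair_mu.prob
  refine measureReal_mono ?_
  rintro ω ⟨y, h1, h2⟩
  obtain ⟨z, k1, k2, -⟩ := first_exit (b := (0, 0)) (R := r) h2 (by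
    rw [sub_self]; simp [nm]; omega) (by omega)
  refine ⟨z, k1, k2.mono subset_rfl ?_⟩
  rintro w ⟨⟨hw1, -⟩, hw2⟩
  exact ⟨hw1, hw2⟩

/-- Comparable scales. -/
theorem pa_ext (K : ℕ) : ∃ c0 : ℝ, 0 < c0 ∧ ∀ (h : Bool) (r R : ℤ), 1 ≤ r → r ≤ R → R ≤ K * r →
    c0 * pa h r ≤ pa h R := by
  obtain ⟨c0, hc0, h0⟩ := oa_ext K
  exact ⟨c0, hc0, fun h r R h1 h2 h3 => h0 h true (0, 0) r R rfl h1 h2 h3⟩

end Vale.Agent.P167.H135
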