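import Vale.Agent.P167.H365.NInt
import Vale.Agent.P167.BR.Sym

/-!
# P167, [DIR]: movements of the medial lattice (rotation by 90 degrees, even translations)

A movement `M : Mov` is a bijection of the squares, sites and medial edges which preserves incidence,
the directions of the edges and the rule of the interfaces. Everything is transported: pieces, masses,
weights, `XD`, `XT`, `TA`, `VD`, `WD`.
-/

namespace Vale.Agent.P167.H135

open Finset MeasureTheory Vale.Agent.P167.BR
open Vale.Agent.P167.H542 (wp' XT)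
open Vale.Agent.P167.H365 (TA)
open Vale.Agent.P167.H167 (WD)

/-- The site `z` is a corner of the square `v`. -/
def Cor (v z : ℤ × ℤ) : Prop := (z.1 = v.1 ∨ z.1 = v.1 + 1) ∧ (z.2 = v.2 ∨ z.2 = v.2 + 1)

/-- A movement of the medial lattice. -/
structure Mov where
  /-- squares -/
  s : (ℤ × ℤ) ≃ (ℤ × ℤ)
  /-- sites -/
  t : (ℤ × ℤ) ≃ (ℤ × ℤ)
  /-- medial edges -/
  k : Ed ≃ Ed
  hd : ∀ e, hdv (k e) = s (hdv e)
  tl : ∀ e, tlv (k e) = s (tlv e)
  lf : ∀ e, ls (k e) = t (ls e)
  rt : ∀ e, rs (k e) = t (rs e)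
  nx : ∀ (ω : Cfg) e, Vale.Agent.P167.nx (fun v => ω (s.symm v)) (k e) = k (Vale.Agent.P167.nx ω e)
  cor : ∀ v z, Cor (s v) (t z) ↔ Cor v z

namespace Mov

variable (M : Mov) {ω : Cfg} {D : Finset (ℤ × ℤ)} {e e' : Ed} {A : Finset Ed} {p : ℤ × ℤ}
  {f : ℤ × ℤ → ℝ}

/-- The moved configuration. -/
def c (ω : Cfg) : Cfg := fun v => ω (M.s.symm v)

/-- The moved set of squares. -/
def S (D : Finset (ℤ × ℤ)) : Finset (ℤ × ℤ) := D.image M.s

/-- The moved set of medial edges. -/
def E (A : Finset Ed) : Finset Ed := A.image M.k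

/-- The moved function on the sites. -/
def F (f : ℤ × ℤ → ℝ) : ℤ × ℤ → ℝ := fun z => f (M.t.symm z)

/-- The inverse movement. -/
def symm : Mov where
  s := M.s.symm
  t := M.t.symm
  k := M.k.symm
  hd e := by rw [Equiv.eq_symm_apply, ← M.hd, Equiv.apply_symm_apply]
  tl e := by rw [Equiv.eq_symm_apply, ← M.tl, Equiv.apply_symm_apply]
  lf e := by rw [Equiv.eq_symm_apply, ← M.lf, Equiv.apply_symm_apply]
  rt e := by rw [Equiv.eq_symm_apply, ← M.rt, Equiv.apply_symm_apply]
  nx ω e := by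
    rw [Equiv.eq_symm_apply, ← M.nx, Equiv.apply_symm_apply]
    simp only [Equiv.symm_symm, Equiv.apply_symm_apply]
  cor v z := by rw [← M.cor, Equiv.apply_symm_apply, Equiv.apply_symm_apply]

/-- The composition: first `M`, then `N`. -/
def trans (N : Mov) : Mov where
  s := M.s.trans N.s
  t := M.t.trans N.t
  k := M.k.trans N.k
  hd e := by simp only [Equiv.trans_apply, N.hd, M.hd]
  tl e := by simp only [Equiv.trans_apply, N.tl, M.tl]
  lf e := by simp only [Equiv.trans_apply, N.lf, M.lf]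
  rt e := by simp only [Equiv.trans_apply, N.rt, M.rt]
  nx ω e := by
    have h1 := N.nx (fun v => ω (M.s.symm v)) (M.k e)
    rw [M.nx] at h1
    exact h1
  cor v z := by simp only [Equiv.trans_apply, N.cor, M.cor]

theorem symm_k : M.symm.k = M.k.symm := rfl

theorem symm_t : M.symm.t = M.t.symm := rfl

theorem symm_s : M.symm.s = M.s.symm := rfl

@[simp] theorem c_s (ω : Cfg) (v : ℤ × ℤ) : M.c ω (M.s v) = ω v := by
  simp [c]

@[simp] theorem symm_c_c (ω : Cfg) : M.symm.c (M.c ω) = ω := by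
  funext v
  simp [c, symm]

@[simp] theorem c_symm_c (ω : Cfg) : M.c (M.symm.c ω) = ω := by
  funext v
  simp [c, symm]

@[simp] theorem symm_S_S (D : Finset (ℤ × ℤ)) : M.symm.S (M.S D) = D := by
  simp [S, symm, image_image]

@[simp] theorem S_symm_S (D : Finset (ℤ × ℤ)) : M.S (M.symm.S D) = D := by
  simp [S, symm, image_image]

@[simp] theorem symm_E_E (A : Finset Ed) : M.symm.E (M.E A) = A := by
  simp [E, symm, image_image]

@[simp] theorem E_symm_E (A : Finset Ed) : M.E (M.symm.E A) = A := by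
  simp [E, symm, image_image]

theorem mem_S {v : ℤ × ℤ} : M.s v ∈ M.S D ↔ v ∈ D := by
  simp [S]

theorem mem_S' {v : ℤ × ℤ} : v ∈ M.S D ↔ M.s.symm v ∈ D := by
  rw [← M.mem_S (D := D) (v := M.s.symm v), Equiv.apply_symm_apply]

theorem mem_E : M.k e ∈ M.E A ↔ e ∈ A := by
  simp [E]

theorem mem_E' : e ∈ M.E A ↔ M.k.symm e ∈ A := by
  rw [← M.mem_E (A := A) (e := M.k.symm e), Equiv.apply_symm_apply]

theorem E_inj : Function.Injective M.E := fun A B h => by
  rw [← M.symm_E_E A, h, M.symm_E_E]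

theorem nx_c (ω : Cfg) (e : Ed) : Vale.Agent.P167.nx (M.c ω) (M.k e) = M.k (Vale.Agent.P167.nx ω e) :=
  M.nx ω e

theorem mem_eds_k : M.k e ∈ eds (M.S D) ↔ e ∈ eds D := by
  rw [mem_eds, mem_eds, M.hd, M.tl, M.mem_S, M.mem_S]

theorem eds_S : eds (M.S D) = M.E (eds D) := by
  ext e
  rw [M.mem_E', ← M.mem_eds_k (D := D) (e := M.k.symm e), Equiv.apply_symm_apply]

/-! ### Pieces -/

theorem eqv_aux (h : Relation.EqvGen (Nxt ω D) e e') :
    Relation.EqvGen (Nxt (M.c ω) (M.S D)) (M.k e) (M.k e') := by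
  induction h with
  | rel x y h =>
    obtain ⟨h1, rfl⟩ := h
    exact Relation.EqvGen.rel _ _ ⟨by rw [M.hd, M.mem_S]; exact h1, (M.nx_c ω x).symm⟩
  | refl x => exact Relation.EqvGen.refl _
  | symm x y _ ih => exact ih.symm
  | trans x y z _ _ ih1 ih2 => exact ih1.trans _ _ _ ih2

theorem eqv_iff : Relation.EqvGen (Nxt (M.c ω) (M.S D)) (M.k e) (M.k e') ↔
    Relation.EqvGen (Nxt ω D) e e' := by
  refine ⟨fun h => ?_, M.eqv_aux⟩
  have := M.symm.eqv_aux h
  rwa [M.symm_c_c, M.symm_S_S, M.symm_k, Equiv.symm_apply_apply, Equiv.symm_apply_apply] at this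

theorem piece_c : piece (M.c ω) (M.S D) (M.k e) = M.E (piece ω D e) := by
  ext e'
  rw [M.mem_E', mem_piece, mem_piece, ← M.mem_eds_k (e := M.k.symm e'),
    ← M.eqv_iff (e' := M.k.symm e'), Equiv.apply_symm_apply]

theorem pcs_c : pcs (M.c ω) (M.S D) = (pcs ω D).image M.E := by
  unfold pcs
  rw [M.eds_S, E, image_image, image_image]
  exact image_congr fun e _ => M.piece_c

theorem isLp_E : IsLp (M.S D) (M.E A) ↔ IsLp D A := by
  unfold IsLp E
  rw [forall_mem_image]
  simp only [M.hd, M.mem_S]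

theorem potD_aux {u : ℤ × ℤ → ℤ} (hu : PotD D A u) :
    PotD (M.S D) (M.E A) fun z => u (M.t.symm z) := by
  intro e he
  obtain ⟨e, rfl⟩ := M.k.surjective e
  have h1 := hu e (M.mem_eds_k.1 he)
  simp only [M.lf, M.rt, Equiv.symm_apply_apply, M.mem_E]
  exact h1

theorem sep_aux {z z' : ℤ × ℤ} (h : Sep D A z z') : Sep (M.S D) (M.E A) (M.t z) (M.t z') := by
  obtain ⟨u, hu, hne⟩ := h
  exact ⟨_, M.potD_aux hu, by simpa using hne⟩

theorem sep_iff {z z' : ℤ × ℤ} : Sep (M.S D) (M.E A) (M.t z) (M.t z') ↔ Sep D A z z' := by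
  refine ⟨fun h => ?_, M.sep_aux⟩
  have := M.symm.sep_aux h
  rwa [M.symm_S_S, M.symm_E_E, M.symm_t, Equiv.symm_apply_apply, Equiv.symm_apply_apply] at this

theorem sites_S : sites (M.S D) = (sites D).image M.t := by
  ext z
  obtain ⟨z, rfl⟩ := M.t.surjective z
  rw [mem_image, mem_sites]
  constructor
  · rintro ⟨v, hv, h⟩
    obtain ⟨v, rfl⟩ := M.s.surjective v
    rw [M.mem_S] at hv
    exact ⟨z, mem_sites.2 ⟨v, hv, (M.cor v z).1 h⟩, rfl⟩
  · rintro ⟨z', hz, h⟩
    rw [← M.t.injective h]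
    obtain ⟨v, hv, h⟩ := mem_sites.1 hz
    exact ⟨M.s v, M.mem_S.2 hv, (M.cor v z').2 h⟩

theorem mem_sites_t {z : ℤ × ℤ} : M.t z ∈ sites (M.S D) ↔ z ∈ sites D := by
  rw [M.sites_S, mem_image]
  constructor
  · rintro ⟨z', h, e⟩
    rwa [← M.t.injective e]
  · exact fun h => ⟨z, h, rfl⟩

theorem mass_E : mass (M.S D) (M.t p) (M.F f) (M.E A) = mass D p f A := by
  classical
  unfold mass
  rw [M.sites_S, sum_image fun x _ y _ h => M.t.injective h]
  refine sum_congr rfl fun z _ => ?_
  have h := M.sep_iff (D := D) (A := A) (z := z) (z' := p)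
  by_cases hz : Sep D A z p
  · rw [if_pos (h.2 hz), if_pos hz]
    simp [F]
  · rw [if_neg fun h' => hz (h.1 h'), if_neg hz]

theorem wp_E (t : ℝ) : wp (M.S D) (M.E A) t = wp D A t := by
  unfold wp
  by_cases hl : IsLp D A
  · rw [if_pos (M.isLp_E.2 hl), if_pos hl]
  · rw [if_neg fun h' => hl (M.isLp_E.1 h'), if_neg hl]

theorem wp'_E (t : ℝ) : wp' (M.S D) (M.E A) t = wp' D A t := by
  unfold wp'
  by_cases hl : IsLp D A
  · rw [if_pos (M.isLp_E.2 hl), if_pos hl]
  · rw [if_neg fun h' => hl (M.isLp_E.1 h'), if_neg hl]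

theorem XD_c : XD (M.S D) (M.t p) (M.F f) (M.c ω) = XD D p f ω := by
  classical
  unfold XD
  rw [M.pcs_c, prod_image fun x _ y _ h => M.E_inj h]
  exact prod_congr rfl fun A _ => by rw [M.mass_E, M.wp_E]

theorem TA_c : TA (M.S D) (M.t p) (M.F f) (M.c ω) (M.E A) = TA D p f ω A := by
  classical
  unfold TA
  rw [M.pcs_c, ← image_erase M.E_inj, prod_image fun x _ y _ h => M.E_inj h, M.mass_E, M.wp'_E]
  congr 1
  exact prod_congr rfl fun A _ => by rw [M.mass_E, M.wp_E]

theorem XT_c {z : ℤ × ℤ} : XT (M.S D) (M.t p) (M.F f) (M.t z) (M.c ω) = XT D p f z ω := by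
  classical
  unfold XT
  have e1 : ((pcs (M.c ω) (M.S D)).filter fun A => Sep (M.S D) A (M.t z) (M.t p)) =
      ((pcs ω D).filter fun A => Sep D A z p).image M.E := by
    rw [M.pcs_c, filter_image]
    congr 1
    ext A
    rw [mem_filter, mem_filter, M.sep_iff]
  rw [e1, sum_image fun x _ y _ h => M.E_inj h]
  exact sum_congr rfl fun A _ => M.TA_c

theorem F_zero : M.F 0 = 0 := rfl

/-! ### Integrals -/

theorem mp_c : MeasurePreserving M.c μ μ := by
  have h := mp_rl M.s.symm false
  exact h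

/-- The movement as a measurable equivalence. -/
noncomputable def cM : Cfg ≃ᵐ Cfg where
  toFun := M.c
  invFun := M.symm.c
  left_inv := M.symm_c_c
  right_inv := M.c_symm_c
  measurable_toFun := M.mp_c.measurable
  measurable_invFun := M.symm.mp_c.measurable

theorem integral_c (g : Cfg → ℝ) : ∫ ω, g (M.c ω) ∂μ = ∫ ω, g ω ∂μ :=
  (show MeasurePreserving M.cM μ μ from M.mp_c).integral_comp' (g := g)

theorem VD_M : VD (M.S D) (M.t p) (M.F f) = VD D p f := by
  unfold VD
  rw [← M.integral_c]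
  simp only [M.XD_c]

theorem int_XT {z : ℤ × ℤ} : ∫ ω, XT (M.S D) (M.t p) (M.F f) (M.t z) ω ∂μ =
    ∫ ω, XT D p f z ω ∂μ := by
  rw [← M.integral_c]
  simp only [M.XT_c]

theorem WD_M {z : ℤ × ℤ} : WD (M.S D) (M.t p) (M.F f) (M.t z) = WD D p f z := by
  unfold WD
  have h := M.int_XT (D := D) (p := p) (f := 0) (z := z)
  rw [M.F_zero] at h
  rw [M.int_XT, M.VD_M, h]

end Mov

/-! ### Rotation by 90 degrees about the site `0` -/

/-- Rotation of the sites. -/
def rtS : (ℤ × ℤ) ≃ (ℤ × ℤ) where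
  toFun z := (-z.2, z.1)
  invFun z := (z.2, -z.1)
  left_inv z := by simp
  right_inv z := by simp

/-- Rotation of the squares. -/
def rtV : (ℤ × ℤ) ≃ (ℤ × ℤ) where
  toFun v := (-v.2 - 1, v.1)
  invFun v := (v.2, -v.1 - 1)
  left_inv v := by ext <;> simp
  right_inv v := by ext <;> simp

/-- Rotation of the medial edges. -/
def rtE : Ed ≃ Ed where
  toFun e := match e with
    | Sum.inl v => Sum.inr (-v.2 - 1, v.1)
    | Sum.inr v => Sum.inl (-v.2 - 2, v.1)
  invFun e := match e with
    | Sum.inl v => Sum.inr (v.2, -v.1 - 2)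
    | Sum.inr v => Sum.inl (v.2, -v.1 - 1)
  left_inv e := by
    rcases e with ⟨x, y⟩ | ⟨x, y⟩ <;> simp
  right_inv e := by
    rcases e with ⟨x, y⟩ | ⟨x, y⟩ <;> simp

theorem par_l (x y : ℤ) : Even (-y - 1 + x) ↔ ¬ Even (x + y) := by
  rw [Int.even_iff, Int.not_even_iff]; omega

theorem par_r (x y : ℤ) : Even (-y - 2 + x) ↔ Even (x + y) := by
  rw [Int.even_iff, Int.even_iff]; omega

/-- The rotation by 90 degrees. -/
def rot : Mov where
  s := rtV
  t := rtS
  k := rtE
  hd e := by
    rcases e with ⟨x, y⟩ | ⟨x, y⟩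
    · show hdv (Sum.inr (-y - 1, x)) = rtV (hdv (Sum.inl (x, y)))
      simp only [hdv, par_l]
      by_cases h : Even (x + y) <;> simp [h, rtV]
    · show hdv (Sum.inl (-y - 2, x)) = rtV (hdv (Sum.inr (x, y)))
      simp only [hdv, par_r]
      by_cases h : Even (x + y)
      · simp only [h, if_true, rtV, Equiv.coe_fn_mk]; ext <;> simp; ring
      · simp only [h, if_false, rtV, Equiv.coe_fn_mk]; ext <;> simp; ring
  tl e := by
    rcases e with ⟨x, y⟩ | ⟨x, y⟩
    · show tlv (Sum.inr (-y - 1, x)) = rtV (tlv (Sum.inl (x, y)))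
      simp only [tlv, par_l]
      by_cases h : Even (x + y) <;> simp [h, rtV]
    · show tlv (Sum.inl (-y - 2, x)) = rtV (tlv (Sum.inr (x, y)))
      simp only [tlv, par_r]
      by_cases h : Even (x + y)
      · simp only [h, if_true, rtV, Equiv.coe_fn_mk]; ext <;> simp; ring
      · simp only [h, if_false, rtV, Equiv.coe_fn_mk]; ext <;> simp; ring
  lf e := by
    rcases e with ⟨x, y⟩ | ⟨x, y⟩
    · show ls (Sum.inr (-y - 1, x)) = rtS (ls (Sum.inl (x, y)))
      simp only [ls, par_l]
      by_cases h : Even (x + y)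
      · simp only [h, not_true_eq_false, if_false, if_true, rtS, Equiv.coe_fn_mk]; ext <;> simp; ring
      · simp only [h, not_false_eq_true, if_true, if_false, rtS, Equiv.coe_fn_mk]; ext <;> simp
    · show ls (Sum.inl (-y - 2, x)) = rtS (ls (Sum.inr (x, y)))
      simp only [ls, par_r]
      by_cases h : Even (x + y)
      · simp only [h, if_true, rtS, Equiv.coe_fn_mk]; ext <;> simp; ring
      · simp only [h, if_false, rtS, Equiv.coe_fn_mk]; ext <;> simp; ring
  rt e := by
    rcases e with ⟨x, y⟩ | ⟨x, y⟩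
    · show rs (Sum.inr (-y - 1, x)) = rtS (rs (Sum.inl (x, y)))
      simp only [rs, par_l]
      by_cases h : Even (x + y)
      · simp only [h, not_true_eq_false, if_false, if_true, rtS, Equiv.coe_fn_mk]; ext <;> simp
      · simp only [h, not_false_eq_true, if_true, if_false, rtS, Equiv.coe_fn_mk]; ext <;> simp; ring
    · show rs (Sum.inl (-y - 2, x)) = rtS (rs (Sum.inr (x, y)))
      simp only [rs, par_r]
      by_cases h : Even (x + y)
      · simp only [h, if_true, rtS, Equiv.coe_fn_mk]; ext <;> simp; ring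
      · simp only [h, if_false, rtS, Equiv.coe_fn_mk]; ext <;> simp; ring
  nx ω e := by
    rcases e with ⟨x, y⟩ | ⟨x, y⟩
    · show nx (fun v => ω (rtV.symm v)) (Sum.inr (-y - 1, x)) = rtE (nx ω (Sum.inl (x, y)))
      simp only [nx, par_l]
      by_cases h : Even (x + y)
      · simp only [h, not_true_eq_false, if_false, if_true]
        have e1 : rtV.symm (-y - 1, x + 1) = (x + 1, y) := by simp [rtV]
        rw [e1]
        by_cases hw : ω (x + 1, y) = true
        · simp only [hw, if_true, rtE, Equiv.coe_fn_mk]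
          congr 1; ext <;> simp; ring
        · simp only [hw, rtE, Equiv.coe_fn_mk]
          simp; ring
      · simp only [h, not_false_eq_true, if_true, if_false]
        have e1 : rtV.symm (-y - 1, x) = (x, y) := by simp [rtV]
        rw [e1]
        by_cases hw : ω (x, y) = true
        · simp only [hw, if_true, rtE, Equiv.coe_fn_mk]
          congr 1; ext <;> simp; ring
        · simp only [hw, rtE, Equiv.coe_fn_mk]
          simp; ring
    · show nx (fun v => ω (rtV.symm v)) (Sum.inl (-y - 2, x)) = rtE (nx ω (Sum.inr (x, y)))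
      simp only [nx, par_r]
      by_cases h : Even (x + y)
      · simp only [h, if_true]
        have e1 : rtV.symm (-y - 2 + 1, x) = (x, y) := by simp [rtV]; ring
        rw [e1]
        by_cases hw : ω (x, y) = true
        · simp only [hw, if_true, rtE, Equiv.coe_fn_mk]
          congr 1; ext <;> simp; ring
        · simp only [hw, rtE, Equiv.coe_fn_mk]
          simp; ring
      · simp only [h, if_false]
        have e1 : rtV.symm (-y - 2, x) = (x, y + 1) := by simp [rtV]; ring
        rw [e1]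
        by_cases hw : ω (x, y + 1) = true
        · simp only [hw, if_true, rtE, Equiv.coe_fn_mk]
          congr 1; ext <;> simp; ring
        · simp only [hw, rtE, Equiv.coe_fn_mk]
          simp; ring
  cor v z := by
    simp only [Cor, rtV, rtS, Equiv.coe_fn_mk]
    omega

/-! ### Even translations -/

/-- The translation by an even vector. -/
def tra (a : ℤ × ℤ) (ha : Even (a.1 + a.2)) : Mov where
  s := Equiv.addRight a
  t := Equiv.addRight a
  k := ⟨shE a, shE (-a), shE_neg a, shE_neg' a⟩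
  hd e := hdv_sh ha e
  tl e := tlv_sh ha e
  lf e := (ls_sh ha e).1
  rt e := (ls_sh ha e).2
  nx ω e := by
    have h := nx_sh ha ω e
    have e1 : shC a ω = fun v => ω ((Equiv.addRight a).symm v) := by
      funext v
      have := shC_ev ha ω (v - a)
      rw [sub_add_cancel] at this
      rw [this]
      simp [sub_eq_add_neg]
    rw [e1] at h
    exact h
  cor v z := by
    simp only [Cor, Equiv.coe_addRight, Prod.fst_add, Prod.snd_add]
    omega

end Vale.Agent.P167.H135
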