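import Vale.Agent.P167.H135.Rot

/-!
# P167, [DIR]: transport of the local hypotheses `Env` by movements
-/

namespace Vale.Agent.P167.H135

open Finset MeasureTheory Vale.Agent.P167.BR
open Vale.Agent.P167.H542 (wp' XT)
open Vale.Agent.P167.H365 (TA Env HPot Stp Jn Fl)
open Vale.Agent.P167.H167 (WD Fd)
open Vale.Agent.P167.H562 (LocFun)
open Vale.Agent.P167.H318 (CoConn Adj)

/-- The fields of `Env` without the flatness. -/
structure Env0 (K R : ℤ) (D : Finset (ℤ × ℤ)) (p : ℤ × ℤ) (f : ℤ × ℤ → ℝ) (M : ℝ) (u : ℤ × ℤ) :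
    Prop where
  one_le : 1 ≤ K
  R1 : 1 ≤ R
  gf : ∀ (y : ℤ × ℤ) (s : ℤ), 1 ≤ s → s ≤ 2 * R → ∀ z ∈ sites D, K * s < nm (z - y) →
    K * s < nm (p - y) → Jn D (fun e => s < nm (hdv e - y)) z p
  hp : 8 * K * R < nm (p - u)
  hf : ∀ z, f z ≠ 0 → 8 * K * R < nm (z - u)
  pot : HPot D
  Y : ∃ Y : Cfg → ℝ, Fd Y ∧ LocFun {v | R < nm (v - u)} Y ∧ (∀ ω, |XD D p f ω| ≤ Y ω) ∧
    (∀ ω, ∀ A ∈ pcs ω D, |TA D p f ω A| ≤ Y ω) ∧ ∫ ω, Y ω ∂μ ≤ M

variable {D : Finset (ℤ × ℤ)} {p u : ℤ × ℤ} {K R R' : ℤ} {f : ℤ × ℤ → ℝ} {B : ℝ}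

theorem Env0.env (E : Env0 K R D p f B u) (h : Fl D u (8 * K * R)) : Env K R D p f B u :=
  ⟨E.one_le, E.R1, h, E.gf, E.hp, E.hf, E.pot, E.Y⟩

theorem Env0.of_env (E : Env K R D p f B u) : Env0 K R D p f B u :=
  ⟨E.one_le, E.R1, E.gf, E.hp, E.hf, E.pot, E.Y⟩

/-- An isometric movement. -/
structure Mov.Isom (M : Mov) : Prop where
  t : ∀ z y, nm (M.t z - M.t y) = nm (z - y)
  s1 : ∀ v y, nm (M.s v - M.t y) ≤ nm (v - y) + 1
  s2 : ∀ v y, nm (v - y) ≤ nm (M.s v - M.t y) + 1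
  adj : ∀ a b, Adj a b ↔ Adj (M.s a) (M.s b)

namespace Mov

variable (M : Mov)

theorem hpot_S (h : HPot D) : HPot (M.S D) := by
  intro ω A hA
  have h1 : A ∈ pcs (M.c (M.symm.c ω)) (M.S D) := by rwa [M.c_symm_c]
  rw [M.pcs_c, mem_image] at h1
  obtain ⟨A', hA', rfl⟩ := h1
  obtain ⟨u, hu⟩ := h _ A' hA'
  exact ⟨_, M.potD_aux hu⟩

theorem stp_S {P P' : Ed → Prop} (hP : ∀ e, P e → P' (M.k e)) {z z' : ℤ × ℤ}
    (h : Stp D P z z') : Stp (M.S D) P' (M.t z) (M.t z') := by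
  obtain ⟨e, he, h1, h2⟩ := h
  refine ⟨M.k e, M.mem_eds_k.2 he, hP e h1, ?_⟩
  rw [M.lf, M.rt]
  rcases h2 with ⟨h2, h3⟩ | ⟨h2, h3⟩
  · exact Or.inl ⟨by rw [h2], by rw [h3]⟩
  · exact Or.inr ⟨by rw [h2], by rw [h3]⟩

theorem jn_S {P P' : Ed → Prop} (hP : ∀ e, P e → P' (M.k e)) {z z' : ℤ × ℤ}
    (h : Jn D P z z') : Jn (M.S D) P' (M.t z) (M.t z') := by
  induction h with
  | refl => exact Relation.ReflTransGen.refl
  | tail _ h1 ih => exact ih.tail (M.stp_S hP h1)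

theorem Isom.coConn {M : Mov} (hM : M.Isom) (h : CoConn D) : CoConn (M.S D) := by
  intro a b ha hb
  obtain ⟨a, rfl⟩ := M.s.surjective a
  obtain ⟨b, rfl⟩ := M.s.surjective b
  rw [M.mem_S] at ha hb
  have h1 := h a b ha hb
  induction h1 with
  | refl => exact Relation.ReflTransGen.refl
  | @tail x y _ h1 ih =>
    by_cases hx : x ∈ D
    · -- the step starts in `D`: it is the first one
      rename_i hxy
      exact absurd hx (by
        rcases Relation.ReflTransGen.cases_tail hxy with h2 | ⟨w, _, h2⟩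
        · rw [h2]; exact ha
        · exact h2.2)
    · exact (ih hx).tail ⟨(hM.adj _ _).1 h1.1, by rw [M.mem_S]; exact h1.2⟩

theorem Isom.env0 {M : Mov} (hM : M.Isom) (E : Env0 K R' D p f B u) (hR : 1 ≤ R)
    (h2 : 2 * R ≤ R') : Env0 (2 * K) R (M.S D) (M.t p) (M.F f) B (M.t u) := by
  have hK := E.one_le
  have hKR : 8 * (2 * K) * R ≤ 8 * K * R' := by nlinarith
  refine ⟨by linarith, hR, ?_, ?_, ?_, M.hpot_S E.pot, ?_⟩
  · intro y s hs hsR z hz h3 h4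
    obtain ⟨y, rfl⟩ := M.t.surjective y
    obtain ⟨z, rfl⟩ := M.t.surjective z
    rw [M.mem_sites_t] at hz
    rw [hM.t] at h3 h4
    have h5 : K * (s + 1) ≤ 2 * K * s := by nlinarith
    refine M.jn_S (fun e he => ?_) (E.gf y (s + 1) (by omega) (by omega) z hz (by omega) (by omega))
    have := hM.s2 (hdv e) y
    simp only [M.hd]
    omega
  · rw [hM.t]
    have := E.hp
    omega
  · intro z hz
    obtain ⟨z, rfl⟩ := M.t.surjective z
    rw [hM.t]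
    have := E.hf z (by simpa [Mov.F] using hz)
    omega
  · obtain ⟨Y, h1, h3, h4, h5, h6⟩ := E.Y
    refine ⟨fun ω => Y (M.symm.c ω), ?_, ?_, ?_, ?_, ?_⟩
    · obtain ⟨G, hG⟩ := h1
      refine ⟨M.S G, fun ω ω' h => hG _ _ fun v hv => ?_⟩
      have := h (M.s v) (by simpa [Mov.mem_S] using hv)
      simpa [Mov.c, Mov.symm] using this
    · intro ω ω' h
      refine h3 _ _ fun v hv => ?_
      have hv' : R < nm (M.s v - M.t u) := by
        have := hM.s2 v u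
        have hv2 : R' < nm (v - u) := hv
        omega
      have := h (M.s v) hv'
      simpa [Mov.c, Mov.symm] using this
    · intro ω
      have := h4 (M.symm.c ω)
      rw [← M.XD_c, M.c_symm_c] at this
      exact this
    · intro ω A hA
      have h7 : A ∈ pcs (M.c (M.symm.c ω)) (M.S D) := by rwa [M.c_symm_c]
      rw [M.pcs_c, mem_image] at h7
      obtain ⟨A', hA', rfl⟩ := h7
      have := h5 (M.symm.c ω) A' hA'
      rw [← M.TA_c, M.c_symm_c] at this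
      exact this
    · rw [M.symm.integral_c Y]
      exact h6

end Mov

/-! ### The movements which are used -/

/-- The identity. -/
def idM : Mov := tra (0, 0) (by decide)

/-- Rotation by `r` times 90 degrees. -/
def rk : Fin 4 → Mov := ![idM, rot, rot.trans rot, rot.trans (rot.trans rot)]

/-- Rotation by `r` times 90 degrees, then translation by the even vector `a`. -/
def mv (r : Fin 4) (a : ℤ × ℤ) (ha : Even (a.1 + a.2)) : Mov := (rk r).trans (tra a ha)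

theorem rk0_t (z : ℤ × ℤ) : (rk 0).t z = z := by simp [rk, idM, tra, Prod.ext_iff]

theorem rk1_t (z : ℤ × ℤ) : (rk 1).t z = (-z.2, z.1) := rfl

theorem rk2_t (z : ℤ × ℤ) : (rk 2).t z = (-z.1, -z.2) := rfl

theorem rk3_t (z : ℤ × ℤ) : (rk 3).t z = (z.2, -z.1) := by
  show (- -z.2, -z.1) = _
  rw [neg_neg]

theorem rk0_s (z : ℤ × ℤ) : (rk 0).s z = z := by simp [rk, idM, tra, Prod.ext_iff]

theorem rk1_s (z : ℤ × ℤ) : (rk 1).s z = (-z.2 - 1, z.1) := rfl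

theorem rk2_s (z : ℤ × ℤ) : (rk 2).s z = (-z.1 - 1, -z.2 - 1) := rfl

theorem rk3_s (z : ℤ × ℤ) : (rk 3).s z = (z.2, -z.1 - 1) := by
  show (-(-z.2 - 1) - 1, -z.1 - 1) = _
  ext <;> simp

theorem rk_add (r : Fin 4) (z w : ℤ × ℤ) : (rk r).t (z + w) = (rk r).t z + (rk r).t w := by
  fin_cases r
  · simp only [rk0_t, Fin.zero_eta]
  · simp only [Fin.mk_one, rk1_t]; ext <;> simp <;> ring
  · show (rk 2).t _ = (rk 2).t _ + (rk 2).t _
    simp only [rk2_t]; ext <;> simp <;> ring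
  · show (rk 3).t _ = (rk 3).t _ + (rk 3).t _
    simp only [rk3_t]; ext <;> simp <;> ring

theorem rk_smul (r : Fin 4) (c : ℤ) (z : ℤ × ℤ) : (rk r).t (c • z) = c • (rk r).t z := by
  fin_cases r
  · simp only [rk0_t, Fin.zero_eta]
  · simp only [Fin.mk_one, rk1_t]; ext <;> simp
  · show (rk 2).t _ = c • (rk 2).t _
    simp only [rk2_t]; ext <;> simp
  · show (rk 3).t _ = c • (rk 3).t _
    simp only [rk3_t]; ext <;> simp

theorem rk_dir (r i : Fin 4) : (rk r).t (E6.dir i) = E6.dir (i + r) := by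
  fin_cases r
  · show (rk 0).t _ = _
    rw [rk0_t]; fin_cases i <;> rfl
  · show (rk 1).t _ = _
    rw [rk1_t]; fin_cases i <;> rfl
  · show (rk 2).t _ = _
    rw [rk2_t]; fin_cases i <;> rfl
  · show (rk 3).t _ = _
    rw [rk3_t]; fin_cases i <;> rfl

theorem mv_t (r : Fin 4) (a : ℤ × ℤ) (ha : Even (a.1 + a.2)) (z : ℤ × ℤ) :
    (mv r a ha).t z = (rk r).t z + a := rfl

theorem mv_s (r : Fin 4) (a : ℤ × ℤ) (ha : Even (a.1 + a.2)) (z : ℤ × ℤ) :
    (mv r a ha).s z = (rk r).s z + a := rfl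

theorem nm_le_iff (v : ℤ × ℤ) (R : ℤ) : nm v ≤ R ↔ (v.1 ≤ R ∧ -R ≤ v.1) ∧ v.2 ≤ R ∧ -R ≤ v.2 := by
  unfold nm
  rw [max_le_iff, abs_le, abs_le]
  tauto

theorem nm_rk (r : Fin 4) (z : ℤ × ℤ) : nm ((rk r).t z) = nm z := by
  fin_cases r
  · show nm ((rk 0).t z) = _
    rw [rk0_t]
  · show nm ((rk 1).t z) = _
    rw [rk1_t]; unfold nm; rw [abs_neg, max_comm]
  · show nm ((rk 2).t z) = _
    rw [rk2_t]; unfold nm; rw [abs_neg, abs_neg]
  · show nm ((rk 3).t z) = _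
    rw [rk3_t]; unfold nm; rw [abs_neg, max_comm]

theorem rk_sub (r : Fin 4) (z w : ℤ × ℤ) : (rk r).t (z - w) = (rk r).t z - (rk r).t w := by
  have := rk_add r (z - w) w
  rw [sub_add_cancel] at this
  rw [this, add_sub_cancel_right]

theorem nm_dif (x y : ℤ × ℤ) (h1 : |x.1 - y.1| ≤ 1) (h2 : |x.2 - y.2| ≤ 1) : nm x ≤ nm y + 1 := by
  unfold nm
  have h3 := abs_sub_abs_le_abs_sub x.1 y.1
  have h4 := abs_sub_abs_le_abs_sub x.2 y.2
  have h5 := le_max_left |y.1| |y.2|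
  have h6 := le_max_right |y.1| |y.2|
  exact max_le (by omega) (by omega)

theorem rk_s_t (r : Fin 4) (v : ℤ × ℤ) : |((rk r).s v).1 - ((rk r).t v).1| ≤ 1 ∧
    |((rk r).s v).2 - ((rk r).t v).2| ≤ 1 := by
  fin_cases r
  · show |((rk 0).s v).1 - ((rk 0).t v).1| ≤ 1 ∧ |((rk 0).s v).2 - ((rk 0).t v).2| ≤ 1
    rw [rk0_s, rk0_t]; simp
  · show |((rk 1).s v).1 - ((rk 1).t v).1| ≤ 1 ∧ |((rk 1).s v).2 - ((rk 1).t v).2| ≤ 1
    rw [rk1_s, rk1_t]; dsimp only; constructor <;> (rw [abs_le]; omega)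
  · show |((rk 2).s v).1 - ((rk 2).t v).1| ≤ 1 ∧ |((rk 2).s v).2 - ((rk 2).t v).2| ≤ 1
    rw [rk2_s, rk2_t]; dsimp only; constructor <;> (rw [abs_le]; omega)
  · show |((rk 3).s v).1 - ((rk 3).t v).1| ≤ 1 ∧ |((rk 3).s v).2 - ((rk 3).t v).2| ≤ 1
    rw [rk3_s, rk3_t]; dsimp only; constructor <;> (rw [abs_le]; omega)

theorem isom_mv (r : Fin 4) (a : ℤ × ℤ) (ha : Even (a.1 + a.2)) : (mv r a ha).Isom where
  t z y := by
    rw [mv_t, mv_t, add_sub_add_right_eq_sub, ← rk_sub, nm_rk]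
  s1 v y := by
    have h := rk_s_t r v
    have h2 : nm ((mv r a ha).s v - (mv r a ha).t y) ≤ nm ((rk r).t v - (rk r).t y) + 1 := by
      rw [mv_s, mv_t, add_sub_add_right_eq_sub]
      refine nm_dif _ _ ?_ ?_
      · simpa only [Prod.fst_sub, sub_sub_sub_cancel_right] using h.1
      · simpa only [Prod.snd_sub, sub_sub_sub_cancel_right] using h.2
    rwa [← rk_sub, nm_rk] at h2
  s2 v y := by
    have h := rk_s_t r v
    have h2 : nm ((rk r).t v - (rk r).t y) ≤ nm ((mv r a ha).s v - (mv r a ha).t y) + 1 := by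
      rw [mv_s, mv_t, add_sub_add_right_eq_sub]
      refine nm_dif _ _ ?_ ?_
      · rw [abs_sub_comm]
        simpa only [Prod.fst_sub, sub_sub_sub_cancel_right] using h.1
      · rw [abs_sub_comm]
        simpa only [Prod.snd_sub, sub_sub_sub_cancel_right] using h.2
    rwa [← rk_sub, nm_rk] at h2
  adj x y := by
    have key : ∀ r : Fin 4, Adj x y ↔ Adj ((rk r).s x) ((rk r).s y) := by
      intro r
      fin_cases r
      · show Adj x y ↔ Adj ((rk 0).s x) ((rk 0).s y)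
        rw [rk0_s, rk0_s]
      · show Adj x y ↔ Adj ((rk 1).s x) ((rk 1).s y)
        rw [rk1_s, rk1_s]; simp only [H318.Adj]; omega
      · show Adj x y ↔ Adj ((rk 2).s x) ((rk 2).s y)
        rw [rk2_s, rk2_s]; simp only [H318.Adj]; omega
      · show Adj x y ↔ Adj ((rk 3).s x) ((rk 3).s y)
        rw [rk3_s, rk3_s]; simp only [H318.Adj]; omega
    rw [key r, mv_s, mv_s]
    simp only [H318.Adj, Prod.fst_add, Prod.snd_add]
    omega

/-! ### Flatness -/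

/-- `D` is flat near the site `u`, the side has the direction `dir r`, the domain is on its left. -/
def FlR (r : Fin 4) (D : Finset (ℤ × ℤ)) (u : ℤ × ℤ) (R : ℤ) : Prop :=
  ∀ v, nm (v - u) ≤ R → (v ∈ D ↔
    match r with
    | 0 => u.2 ≤ v.2
    | 1 => v.1 < u.1
    | 2 => v.2 < u.2
    | 3 => u.1 ≤ v.1)

/-- After the rotation by `-r` the side is horizontal and the domain is above. -/
theorem FlR.fl {r : Fin 4} (h : FlR r D u (R + 1)) (a : ℤ × ℤ) (ha : Even (a.1 + a.2)) :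
    Fl ((mv (-r) a ha).S D) ((mv (-r) a ha).t u) R := by
  intro v hv
  obtain ⟨v, rfl⟩ := (mv (-r) a ha).s.surjective v
  rw [Mov.mem_S]
  have h1 := (isom_mv (-r) a ha).s2 v u
  rw [h v (by omega), mv_t, mv_s]
  fin_cases r
  · show u.2 ≤ v.2 ↔ ((rk 0).t u + a).2 ≤ ((rk 0).s v + a).2
    rw [rk0_t, rk0_s]; simp
  · show v.1 < u.1 ↔ ((rk 3).t u + a).2 ≤ ((rk 3).s v + a).2
    rw [rk3_t, rk3_s]; simp only [Prod.snd_add]; omega
  · show v.2 < u.2 ↔ ((rk 2).t u + a).2 ≤ ((rk 2).s v + a).2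
    rw [rk2_t, rk2_s]; simp only [Prod.snd_add]; omega
  · show u.1 ≤ v.1 ↔ ((rk 1).t u + a).2 ≤ ((rk 1).s v + a).2
    rw [rk1_t, rk1_s]; simp only [Prod.snd_add]; omega

end Vale.Agent.P167.H135
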