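import Vale.Agent.P167.H135.NO4
import Vale.Agent.P167.H199.CutOrb
import Vale.Agent.P167.H166.Arc

/-!
# P167, block NORM, TIPARM: a strand around the tip is the only obstruction to an arm

`tip_arm`: `P ⊆ S` cut medial edges near the site `T` of colour `c`, on one side of `T`. If every
strand which starts in `P` on one face and stays near `T` (the sites of colour `c` along it are at
distance less than `R`) comes back to `P` on the same face, then `T` is joined to distance `R` by its
own colour. The proof is a counting argument (injection of a finite set into itself).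
-/

namespace Vale.Agent.P167.H135

open MeasureTheory Finset Vale.Agent.P145.FB Vale.Agent.P153 Vale.Agent.P153.Topo Vale.Agent.P167
  Vale.Agent.P167.H871 Vale.Agent.P167.H632
open Vale.Agent.P167.H199 (ret Returns ret_min ret_le)
open Relation

/-- The site of colour `c` adjacent to a medial edge. -/
def col (c : Bool) (e : Ed) : Pt := if c then ls e else rs e

theorem col_par (c : Bool) (e : Ed) : ((col c e).1 + (col c e).2) % 2 = pr c := by
  have := H166.corner e
  cases c <;> simp only [col, pr, if_true, Bool.false_eq_true, if_false] <;> omega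

/-- One step: the site of colour `c` stays or moves along a square of colour `c`. -/
theorem col_nx (c : Bool) (ω : Cfg) (e : Ed) :
    col c (nx ω e) = col c e ∨ PStep (cs c ω) (col c e) (col c (nx ω e)) := by
  obtain ⟨h1, h2⟩ := H166.nx_step ω e
  have key : ∀ {b : Bool} {s t : Pt}, ω (hdv e) = b → PStep {hdv e} s t → PStep (cs b ω) s t := by
    intro b s t hb h
    refine ⟨h.1, h.2.1, ?_⟩
    have := h.2.2
    rw [Set.mem_singleton_iff] at this
    rw [this]
    exact hb
  cases hω : ω (hdv e)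
  · obtain ⟨k1, k2⟩ := h2 hω
    cases c
    · exact Or.inr (key hω k2)
    · exact Or.inl k1
  · obtain ⟨k1, k2⟩ := h1 hω
    cases c
    · exact Or.inl k2
    · exact Or.inr (key hω k1)

theorem col_finite (c : Bool) {A : Set Pt} (hA : A.Finite) : {e : Ed | col c e ∈ A}.Finite := by
  have h : ∀ s : Pt, {e : Ed | col c e = s}.Finite := by
    intro s
    refine ((H166.touch_finite (Finset.Icc (s.1 - 1, s.2 - 1) (s.1 + 1, s.2 + 1)))).subset ?_
    rintro e rfl
    left
    have := H166.corner e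
    rw [Finset.mem_Icc, Prod.le_def, Prod.le_def]
    cases c <;> simp only [col, if_true, Bool.false_eq_true, if_false] <;> omega
  have e : {e : Ed | col c e ∈ A} = ⋃ s ∈ A, {e : Ed | col c e = s} := by
    ext x; simp
  rw [e]
  exact hA.biUnion fun s _ => h s

theorem bl_finite (b : Pt) (R : ℤ) : (bl b R).Finite := by
  refine (bq b R).finite_toSet.subset ?_
  intro w hw
  exact mem_bq.2 hw

theorem first_inj {f : Ed → Ed} (hf : Function.Injective f) {S : Finset Ed} {a b : Ed}
    (ha : a ∈ S) (hb : b ∈ S) (ra : Returns f S a) (rb : Returns f S b)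
    (h : f^[ret f S a] a = f^[ret f S b] b) : a = b := by
  wlog hle : ret f S a ≤ ret f S b generalizing a b
  · exact (this hb ha rb ra h.symm (by omega)).symm
  have e : ret f S b = ret f S a + (ret f S b - ret f S a) := by omega
  rw [e, Function.iterate_add_apply] at h
  have h1 := hf.iterate _ h
  have h4 := ra.spec.1
  rcases Nat.eq_zero_or_pos (ret f S b - ret f S a) with h2 | h2
  · rw [h2] at h1; exact h1
  · exact absurd (h1 ▸ ha : f^[ret f S b - ret f S a] b ∈ S) (ret_min (by omega) (by omega))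

/-- **A strand around the tip is the only obstruction to an arm from the tip.** -/
theorem tip_arm {ω : Cfg} {S P : Finset Ed} {c : Bool} {T : Pt} {σ R : ℤ} {Rg : Set Pt}
    (hR : 1 ≤ R) (hPS : P ⊆ S) (hTR : T ∈ Rg)
    (hinj : ∀ e ∈ P, ∀ e' ∈ P, sg e = -σ → sg e' = -σ → col c e = col c e' → e = e')
    (hpair : ∀ e ∈ P, sg e = -σ → nm (col c e - T) < R → ∃ e' ∈ P, sg e' = σ ∧ col c e' = col c e)
    (hT : ∃ e ∈ P, sg e = σ ∧ col c e = T) (hT' : ∀ e ∈ P, sg e = -σ → col c e ≠ T)
    (hreg : ∀ e ∈ P, sg e = σ → ∀ k : ℕ, (∀ j : ℕ, 1 ≤ j → j < k → (nx ω)^[j] e ∉ S) →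
      (∀ j ≤ k, nm (col c ((nx ω)^[j] e) - T) ≤ R) → col c ((nx ω)^[k] e) ∈ Rg)
    (hno : ∀ e ∈ P, sg e = σ → Returns (nx ω) S e →
      (∀ k ≤ ret (nx ω) S e, nm (col c ((nx ω)^[k] e) - T) < R) →
      (nx ω)^[ret (nx ω) S e] e ∈ P ∧ sg ((nx ω)^[ret (nx ω) S e] e) = -σ) :
    ∃ y : Pt, nm (y - T) = R ∧ PConn (cs c ω) (Rg ∩ bl T R) T y := by
  classical
  by_contra hcon
  push Not at hcon
  have hinjnx : Function.Injective (nx ω) := (s_nx ω).1
  obtain ⟨Cp, hCp⟩ : ∃ Cp : Set Pt, Cp = {s | PConn (cs c ω) (Rg ∩ bl T R) T s} := ⟨_, rfl⟩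
  have hlt : ∀ s ∈ Cp, nm (s - T) < R := by
    intro s hs
    rw [hCp] at hs
    have h1 : nm (s - T) ≤ R := hs.right_mem.2
    exact lt_of_le_of_ne h1 fun h => hcon s h hs
  have hfin : Cp.Finite := (bl_finite T R).subset fun s hs => (hlt s hs).le
  -- the sites along a strand
  have walk : ∀ e ∈ P, sg e = σ → col c e ∈ Cp → ∀ k : ℕ,
      (∀ j : ℕ, 1 ≤ j → j < k → (nx ω)^[j] e ∉ S) → ∀ i ≤ k, col c ((nx ω)^[i] e) ∈ Cp := by
    intro e he hse hc k
    induction k with
    | zero =>
      intro _ i hi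
      obtain rfl : i = 0 := by omega
      exact hc
    | succ k ih =>
      intro hS i hi
      have ih' := ih fun j h1 h2 => hS j h1 (by omega)
      rcases Nat.lt_or_ge i (k + 1) with h | h
      · exact ih' i (by omega)
      obtain rfl : i = k + 1 := by omega
      have hk := ih' k le_rfl
      rw [Function.iterate_succ_apply']
      rcases col_nx c ω ((nx ω)^[k] e) with h1 | h1
      · rw [h1]; exact hk
      · have h2 := (nm_step (b := T) h1).1
        have h3 := hlt _ hk
        have h4 : col c (nx ω ((nx ω)^[k] e)) ∈ Rg := by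
          have := hreg e he hse (k + 1) hS fun j hj => by
            rcases Nat.lt_or_ge j (k + 1) with h5 | h5
            · exact (hlt _ (ih' j (by omega))).le
            · obtain rfl : j = k + 1 := by omega
              rw [Function.iterate_succ_apply']
              omega
          rwa [Function.iterate_succ_apply'] at this
        rw [hCp] at hk ⊢
        exact PConn.tail hk h1 ⟨h4, show nm (_ - T) ≤ R by omega⟩
  have hret : ∀ e ∈ P, sg e = σ → col c e ∈ Cp → Returns (nx ω) S e := by
    intro e he hse hc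
    by_contra hn
    have hn' : ∀ j : ℕ, 1 ≤ j → (nx ω)^[j] e ∉ S := fun j hj h => hn ⟨j, hj, h⟩
    have hfe := col_finite c hfin
    have : ∀ n : ℕ, (nx ω)^[n] e ∈ {e : Ed | col c e ∈ Cp} := fun n =>
      walk e he hse hc n (fun j h1 _ => hn' j h1) n le_rfl
    have hft : Finite {e : Ed | col c e ∈ Cp} := hfe
    obtain ⟨m, m', hne, heq⟩ := Finite.exists_ne_map_eq_of_infinite
      (fun n : ℕ => (⟨(nx ω)^[n] e, this n⟩ : {e : Ed | col c e ∈ Cp}))
    have heq' : (nx ω)^[m] e = (nx ω)^[m'] e := congrArg Subtype.val heq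
    wlog hlt' : m < m' generalizing m m'
    · exact this m' m hne.symm heq.symm heq'.symm (by omega)
    have h1 : (nx ω)^[m] ((nx ω)^[m' - m] e) = (nx ω)^[m] e := by
      rw [← Function.iterate_add_apply, heq']
      congr 1
      congr 1
      omega
    have h2 := hinjnx.iterate m h1
    exact hn' (m' - m) (by omega) (by rw [h2]; exact hPS he)
  -- the map
  let A : Type := {e : Ed // e ∈ P ∧ sg e = σ ∧ col c e ∈ Cp}
  have hA : Finite A := Finite.of_injective
    (fun x : A => (⟨x.1, x.2.1⟩ : {e // e ∈ P})) fun x y h => Subtype.ext (by simpa using h)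
  have step : ∀ x : A, ∃ y : A, col c y.1 = col c ((nx ω)^[ret (nx ω) S x.1] x.1) ∧
      (nx ω)^[ret (nx ω) S x.1] x.1 ∈ P ∧ sg ((nx ω)^[ret (nx ω) S x.1] x.1) = -σ := by
    rintro ⟨e, h1, h2, h3⟩
    have hr := hret e h1 h2 h3
    have hw := walk e h1 h2 h3 (ret (nx ω) S e) (fun j h4 h5 => ret_min h4 h5)
    obtain ⟨k1, k2⟩ := hno e h1 h2 hr fun k hk => hlt _ (hw k hk)
    have k3 := hw _ le_rfl
    obtain ⟨e', m1, m2, m3⟩ := hpair _ k1 k2 (hlt _ k3)
    exact ⟨⟨e', m1, m2, by rw [m3]; exact k3⟩, m3, k1, k2⟩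
  choose ψ h1 h2 h3 using step
  have inj : Function.Injective ψ := by
    intro x y h
    have e1 : col c ((nx ω)^[ret (nx ω) S x.1] x.1) = col c ((nx ω)^[ret (nx ω) S y.1] y.1) := by
      rw [← h1 x, ← h1 y, h]
    have e2 := hinj _ (h2 x) _ (h2 y) (h3 x) (h3 y) e1
    exact Subtype.ext (first_inj hinjnx (hPS x.2.1) (hPS y.2.1)
      (hret _ x.2.1 x.2.2.1 x.2.2.2) (hret _ y.2.1 y.2.2.1 y.2.2.2) e2)
  have surj := Finite.surjective_of_injective inj
  obtain ⟨eT, t1, t2, t3⟩ := hT
  have tC : T ∈ Cp := by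
    rw [hCp]
    refine PConn.refl ⟨hTR, ?_⟩
    have : nm (T - T) = 0 := by rw [sub_self]; rfl
    show nm (T - T) ≤ R
    omega
  obtain ⟨x, hx⟩ := surj ⟨eT, t1, t2, by rw [t3]; exact tC⟩
  refine hT' _ (h2 x) (h3 x) ?_
  rw [← h1 x, hx]
  exact t3

end Vale.Agent.P167.H135
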